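import Vale.Agent.P235.Ladder.Packing

/-!
Bridges: two disjoint paths from two roots and many disjoint connected sets meeting both.
-/

open Finset

namespace Vale.Agent.P235.Ladder

variable {V : Type} {G : SimpleGraph V}

/-- The edges of `G` inside `W`. -/
def within (G : SimpleGraph V) (W : Set V) : SimpleGraph V where
  Adj x y := G.Adj x y ∧ x ∈ W ∧ y ∈ W
  symm := ⟨fun _ _ h => ⟨h.1.symm, h.2.2, h.2.1⟩⟩
  loopless := ⟨fun _ h => h.1.ne rfl⟩

theorem within_le (W : Set V) : within G W ≤ G := fun _ _ h => h.1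

theorem joined_within {Y W : Set V} (hYW : Y ⊆ W) {a b : V} (h : Joined G Y a b) :
    Joined (within G W) Y a b := by
  obtain ⟨p, hp⟩ := h
  induction p with
  | nil => exact .refl (hp _ (by simp))
  | @cons u v w h p ih =>
    simp only [SimpleGraph.Walk.support_cons, List.mem_cons, forall_eq_or_imp] at hp
    have hv := hp.2 v p.start_mem_support
    exact (joined_adj (G := within G W) ⟨h, hYW hp.1, hYW hv⟩ hp.1 hv).trans (ih hp.2)

theorem within_subset {R W : Set V} (hR : Conn (within G W) R) {x : V} (hx : x ∈ R)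
    (hxW : x ∈ W) : R ⊆ W := by
  intro y hy
  obtain ⟨p, -⟩ := hR.2 x hx y hy
  clear hx hy
  induction p with
  | nil => exact hxW
  | cons h p ih => exact ih h.2.2

/-- `W` and all sets obtained by deleting one of its vertices are connected. -/
def TwoConn (G : SimpleGraph V) (W : Set V) : Prop :=
  Conn G W ∧ ∀ z, Conn G (W \ {z})

/-- A bridge with `j` rungs in `W`, rooted at `s` and `t`. -/
def Bridge (G : SimpleGraph V) (W : Set V) (s t : V) (j : ℕ) : Prop :=
  ∃ s' t', ∃ p : G.Walk s s', ∃ q : G.Walk t t', p.IsPath ∧ q.IsPath ∧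
    (∀ z ∈ p.support, z ∈ W) ∧ (∀ z ∈ q.support, z ∈ W) ∧ (∀ z ∈ p.support, z ∉ q.support) ∧
    ∃ R : Fin j → Set V, Pairwise (Function.onFun Disjoint R) ∧
      ∀ i, Conn G (R i) ∧ R i ⊆ W ∧ (∃ z ∈ R i, z ∈ p.support) ∧ ∃ z ∈ R i, z ∈ q.support

theorem bridge_zero {W : Set V} {s t : V} (hs : s ∈ W) (ht : t ∈ W) (hst : s ≠ t) :
    Bridge G W s t 0 :=
  ⟨s, t, .nil, .nil, by simp, by simp, by simpa, by simpa, by simpa,
    Fin.elim0, fun i => i.elim0, fun i => i.elim0⟩

theorem no_long_bridge {k : ℕ} (hk : 0 < k) (hG : ¬ HasMinor G (ladder k)) (W : Set V) (s t : V) :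
    ¬ Bridge G W s t ((k - 1) * (k - 1) + 1) := fun ⟨_, _, p, q, hp, hq, _, _, hd, R, hRd, hR⟩ =>
  hG (ladder_of_rungs p q hp hq hd hk (by omega) R hRd (fun i => (hR i).1)
    (fun i => (hR i).2.2.1) fun i => (hR i).2.2.2)

theorem isPath_append {x y z : V} {p : G.Walk x y} {q : G.Walk y z} (hp : p.IsPath) (hq : q.IsPath)
    (h : ∀ t ∈ p.support, t ∈ q.support → t = y) : (p.append q).IsPath := by
  rw [SimpleGraph.Walk.isPath_def, SimpleGraph.Walk.support_append]
  refine hp.support_nodup.append hq.support_nodup.tail fun t htp htq => ?_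
  obtain rfl := h t htp (List.mem_of_mem_tail htq)
  have := hq.support_nodup
  rw [← SimpleGraph.Walk.cons_tail_support] at this
  exact (List.nodup_cons.1 this).1 htq

/-- Two disjoint paths from the roots to a set, each meeting it only at its end. -/
theorem two_paths [Finite V] {W X : Set V} (hW : TwoConn G W) {s t : V} (hs : s ∈ W) (ht : t ∈ W)
    (hst : s ≠ t) (hXW : X ⊆ W) (hX : X.Nontrivial) :
    ∃ x y, x ∈ X ∧ y ∈ X ∧ x ≠ y ∧ ∃ p : G.Walk s x, ∃ q : G.Walk t y, p.IsPath ∧ q.IsPath ∧
      (∀ z ∈ p.support, z ∈ W) ∧ (∀ z ∈ q.support, z ∈ W) ∧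
      (∀ z ∈ p.support, z ∈ X → z = x) ∧ (∀ z ∈ q.support, z ∈ X → z = y) ∧
      ∀ z ∈ p.support, z ∉ q.support := by
  classical
  obtain ⟨R, hRd, hR⟩ := menger (within G W) {s, t} X 2 (fun T hT => by
    obtain ⟨z, hz⟩ : ∃ z, ∀ u ∈ T, u = z := by
      rcases T.eq_empty_or_nonempty with rfl | ⟨z, hz⟩
      · exact ⟨s, by simp⟩
      · exact ⟨z, fun u hu => card_le_one.1 (by omega) u hu z hz⟩
    obtain ⟨a, ha, haz⟩ : ∃ a ∈ ({s, t} : Set V), a ≠ z := by
      by_cases h : s = z
      · exact ⟨t, Or.inr rfl, fun h' => hst (h.trans h'.symm)⟩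
      · exact ⟨s, Or.inl rfl, h⟩
    obtain ⟨b, hb, hbz⟩ := hX.exists_ne z
    have haW : a ∈ W := by rcases ha with rfl | rfl <;> assumption
    refine ⟨a, ha, b, hb, ((joined_within Set.sdiff_subset
      ((hW.2 z).2 a ⟨haW, haz⟩ b ⟨hXW hb, hbz⟩))).mono fun u hu huT => hu.2 (hz u huT)⟩)
  choose a ha x hx r hr hrR _ hrX using fun i => (hR i).1.exists_link (hR i).2.1 (hR i).2.2
  have hd : ∀ i j, i ≠ j → ∀ z ∈ (r i).support, z ∉ (r j).support := fun i j hij z h1 h2 =>
    Set.disjoint_left.1 (hRd hij) (hrR i z h1) (hrR j z h2)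
  have haW : ∀ i, a i ∈ W := fun i => by rcases ha i with h | h <;> rw [h] <;> assumption
  have hmem : ∀ i, ∀ z ∈ (r i).support, z ∈ W := fun i z hz =>
    within_subset (hR i).1 (hrR i _ (r i).start_mem_support) (haW i) (hrR i z hz)
  have hane : a 0 ≠ a 1 := fun h =>
    hd 0 1 (by decide) _ (r 0).start_mem_support (by rw [h]; exact (r 1).start_mem_support)
  obtain ⟨i, j, hij, hi, hj⟩ : ∃ i j : Fin 2, i ≠ j ∧ a i = s ∧ a j = t := by
    rcases ha 0 with h0 | h0 <;> rcases ha 1 with h1 | h1
    · exact absurd (h0.trans h1.symm) hane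
    · exact ⟨0, 1, by decide, h0, h1⟩
    · exact ⟨1, 0, by decide, h1, h0⟩
    · exact absurd (h0.trans h1.symm) hane
  refine ⟨x i, x j, hx i, hx j, fun h => hd i j hij _ (r i).end_mem_support
    (by rw [h]; exact (r j).end_mem_support), ((r i).mapLe (within_le W)).copy hi rfl,
    ((r j).mapLe (within_le W)).copy hj rfl, by simpa using hr i, by simpa using hr j,
    by simpa using hmem i, by simpa using hmem j, by simpa using hrX i, by simpa using hrX j,
    by simpa using hd i j hij⟩

/-- A bridge gains a rung when it is pulled back to the roots. -/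
theorem bridge_step {W X : Set V} {s t x y : V} {p : G.Walk s x} {q : G.Walk t y}
    (hp : p.IsPath) (hq : q.IsPath) (hpW : ∀ z ∈ p.support, z ∈ W) (hqW : ∀ z ∈ q.support, z ∈ W)
    (hpX : ∀ z ∈ p.support, z ∈ X → z = x) (hqX : ∀ z ∈ q.support, z ∈ X → z = y)
    (hpq : ∀ z ∈ p.support, z ∉ q.support) (hXW : X ⊆ W) (hj : Joined G (W \ X) s t) {j : ℕ}
    (h : Bridge G X x y j) : Bridge G W s t (j + 1) := by
  obtain ⟨x', y', p', q', hp', hq', hp'X, hq'X, hd, R, hRd, hR⟩ := h
  obtain ⟨w, hw⟩ := hj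
  refine ⟨x', y', p.append p', q.append q', isPath_append hp hp' fun z hz hz' => hpX z hz (hp'X z hz'),
    isPath_append hq hq' fun z hz hz' => hqX z hz (hq'X z hz'), ?_, ?_, ?_,
    Fin.cons {z | z ∈ w.support} R, ?_, ?_⟩
  · intro z hz
    rcases (SimpleGraph.Walk.mem_support_append_iff _ _).1 hz with hz | hz
    exacts [hpW z hz, hXW (hp'X z hz)]
  · intro z hz
    rcases (SimpleGraph.Walk.mem_support_append_iff _ _).1 hz with hz | hz
    exacts [hqW z hz, hXW (hq'X z hz)]
  · intro z hz hz'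
    rcases (SimpleGraph.Walk.mem_support_append_iff _ _).1 hz with hz | hz <;>
      rcases (SimpleGraph.Walk.mem_support_append_iff _ _).1 hz' with hz' | hz'
    · exact hpq z hz hz'
    · obtain rfl := hpX z hz (hq'X z hz')
      exact hd z p'.start_mem_support hz'
    · obtain rfl := hqX z hz' (hp'X z hz)
      exact hd z hz q'.start_mem_support
    · exact hd z hz hz'
  · intro i k hik
    cases i using Fin.cases with
    | zero =>
      cases k using Fin.cases with
      | zero => exact absurd rfl hik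
      | succ k =>
        simp only [Function.onFun, Fin.cons_zero, Fin.cons_succ, Set.disjoint_left]
        exact fun z hz hz' => (hw z hz).2 ((hR k).2.1 hz')
    | succ i =>
      cases k using Fin.cases with
      | zero =>
        simp only [Function.onFun, Fin.cons_zero, Fin.cons_succ, Set.disjoint_left]
        exact fun z hz hz' => (hw z hz').2 ((hR i).2.1 hz)
      | succ k => simpa [Function.onFun] using hRd fun h => hik (congrArg Fin.succ h)
  · intro i
    cases i using Fin.cases with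
    | zero =>
      simp only [Fin.cons_zero]
      exact ⟨conn_support w, fun z hz => (hw z hz).1,
        ⟨s, w.start_mem_support, (p.append p').start_mem_support⟩,
        ⟨t, w.end_mem_support, (q.append q').start_mem_support⟩⟩
    | succ i =>
      simp only [Fin.cons_succ]
      obtain ⟨hc, hsub, ⟨a, ha, ha'⟩, b, hb, hb'⟩ := hR i
      exact ⟨hc, hsub.trans hXW,
        ⟨a, ha, (SimpleGraph.Walk.mem_support_append_iff _ _).2 (Or.inr ha')⟩,
        b, hb, (SimpleGraph.Walk.mem_support_append_iff _ _).2 (Or.inr hb')⟩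

/-- The connected sets separating the roots have few disjoint members. -/
theorem no_packing_separators [Finite V] {k : ℕ} (hk : 0 < k) (hG : ¬ HasMinor G (ladder k))
    {W : Set V} (hW : TwoConn G W) {s t : V} (hs : s ∈ W) (ht : t ∈ W) (hst : s ≠ t) :
    NoPacking {H | Conn G H ∧ H ⊆ W ∧ s ∉ H ∧ t ∉ H ∧ ¬ Joined G (W \ H) s t}
      ((k - 1) * (k - 1) + 1) := by
  classical
  intro R hR hRd
  have hadj : ¬ G.Adj s t := fun h =>
    (hR 0).2.2.2.2 (joined_adj h ⟨hs, (hR 0).2.2.1⟩ ⟨ht, (hR 0).2.2.2.1⟩)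
  set U : Set V := W \ {s, t}
  obtain ⟨S, hSd, hS⟩ := menger (within G U) {a | a ∈ U ∧ G.Adj s a} {b | b ∈ U ∧ G.Adj t b} 2
    (fun T hT => by
      obtain ⟨Y, hYW, hYT, hj⟩ : ∃ Y ⊆ W, (∀ u ∈ U, u ∈ Y → u ∉ T) ∧ Joined G Y s t := by
        by_cases hTU : ∃ u ∈ T, u ∈ U
        · obtain ⟨u, huT, hu⟩ := hTU
          refine ⟨W \ {u}, Set.sdiff_subset, fun v _ hv hvT =>
            hv.2 (card_le_one.1 (by omega) v hvT u huT), (hW.2 u).2 s ⟨hs, ?_⟩ t ⟨ht, ?_⟩⟩
          · exact fun h => hu.2 (Or.inl h.symm)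
          · exact fun h => hu.2 (Or.inr h.symm)
        · push Not at hTU
          exact ⟨W, subset_rfl, fun u hu _ huT => hTU u huT hu, hW.1.2 s hs t ht⟩
      obtain ⟨w, hw⟩ := hj
      set q := (w.toPath : G.Walk s t)
      have hq : q.IsPath := w.toPath.2
      have hqY : ∀ z ∈ q.support, z ∈ Y := fun z hz =>
        hw z (w.support_toPath_subset_support hz)
      have hlen : 2 ≤ q.length := by
        by_contra hc
        rcases (show q.length = 0 ∨ q.length = 1 by omega) with h | h
        · exact hst (q.eq_of_length_eq_zero h)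
        · exact hadj (q.adj_of_length_eq_one h)
      have hint : seg q 1 q.length ⊆ U ∩ Y := by
        rintro _ ⟨i, hi1, hi2, hi3, rfl⟩
        have hY := hqY _ (q.getVert_mem_support i)
        refine ⟨⟨hYW hY, ?_⟩, hY⟩
        rintro (h | h)
        · have := hq.getVert_injOn hi3 (Nat.zero_le q.length) (h.trans q.getVert_zero.symm)
          omega
        · have := hq.getVert_injOn hi3 (le_refl q.length) (h.trans q.getVert_length.symm)
          omega
      have h1 : q.getVert 1 ∈ seg q 1 q.length := ⟨1, le_rfl, by omega, by omega, rfl⟩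
      have h2 : q.getVert (q.length - 1) ∈ seg q 1 q.length :=
        ⟨_, by omega, by omega, by omega, rfl⟩
      refine ⟨q.getVert 1, ⟨(hint h1).1, ?_⟩, q.getVert (q.length - 1), ⟨(hint h2).1, ?_⟩,
        (joined_within (Y := seg q 1 q.length) (fun z hz => (hint hz).1)
          ((seg_conn q (by omega) (by omega)).2 _ h1 _ h2)).mono
          fun z hz hzT => hYT z (hint hz).1 (hint hz).2 hzT⟩
      · have := q.adj_getVert_succ (show 0 < q.length by omega)
        rwa [SimpleGraph.Walk.getVert_zero] at this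
      · have := q.adj_getVert_succ (show q.length - 1 < q.length by omega)
        rw [show q.length - 1 + 1 = q.length by omega, SimpleGraph.Walk.getVert_length] at this
        exact this.symm)
  choose a ha b hb r hr hrS _ _ using fun i => (hS i).1.exists_link (hS i).2.1 (hS i).2.2
  have hrU : ∀ i, ∀ z ∈ (r i).support, z ∈ U := fun i z hz =>
    within_subset (hS i).1 (hrS i _ (r i).start_mem_support) (ha i).1 (hrS i z hz)
  have hd : ∀ i j, i ≠ j → ∀ z ∈ (r i).support, z ∉ (r j).support := fun i j hij z h1 h2 =>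
    Set.disjoint_left.1 (hSd hij) (hrS i z h1) (hrS j z h2)
  have hmeet : ∀ m i, ∃ z ∈ R m, z ∈ ((r i).mapLe (within_le U)).support := by
    intro m i
    by_contra hc
    push Not at hc
    obtain ⟨-, -, hsR, htR, hsep⟩ := hR m
    have hin : ∀ z ∈ ((r i).mapLe (within_le U)).support, z ∈ W \ R m := fun z hz =>
      ⟨(hrU i z (by simpa using hz)).1, fun h => hc z h hz⟩
    exact hsep (((joined_adj (X := W \ R m) (ha i).2 ⟨hs, hsR⟩ (hin _ (SimpleGraph.Walk.start_mem_support _))).trans
      (show Joined G (W \ R m) (a i) (b i) from ⟨_, hin⟩)).trans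
        (joined_adj (X := W \ R m) (hb i).2.symm (hin _ (SimpleGraph.Walk.end_mem_support _)) ⟨ht, htR⟩))
  exact hG (ladder_of_rungs ((r 0).mapLe (within_le U)) ((r 1).mapLe (within_le U))
    (by simpa using hr 0) (by simpa using hr 1) (by simpa using hd 0 1 (by decide)) hk (by omega)
    R hRd (fun m => (hR m).1) (fun m => hmeet m 0) fun m => hmeet m 1)

end Vale.Agent.P235.Ladder
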