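import Mathlib

/-!
Connected vertex sets and paths, inside a fixed graph.
-/

namespace Vale.Agent.P235.Ladder

variable {V : Type} {G : SimpleGraph V}

/-- `x` and `y` are joined by a walk whose vertices lie in `X`. -/
def Joined (G : SimpleGraph V) (X : Set V) (x y : V) : Prop :=
  ∃ p : G.Walk x y, ∀ z ∈ p.support, z ∈ X

/-- A nonempty vertex set in which any two vertices are joined. -/
def Conn (G : SimpleGraph V) (X : Set V) : Prop :=
  X.Nonempty ∧ ∀ x ∈ X, ∀ y ∈ X, Joined G X x y

theorem Joined.refl {X : Set V} {x : V} (hx : x ∈ X) : Joined G X x x :=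
  ⟨.nil, by simpa using hx⟩

theorem Joined.symm {X : Set V} {x y : V} (h : Joined G X x y) : Joined G X y x := by
  obtain ⟨p, hp⟩ := h
  exact ⟨p.reverse, fun z hz => hp z (by simpa using hz)⟩

theorem Joined.trans {X : Set V} {x y z : V} (h : Joined G X x y) (h' : Joined G X y z) :
    Joined G X x z := by
  obtain ⟨p, hp⟩ := h
  obtain ⟨q, hq⟩ := h'
  refine ⟨p.append q, fun w hw => ?_⟩
  rcases (SimpleGraph.Walk.mem_support_append_iff p q).1 hw with hw | hw
  · exact hp w hw
  · exact hq w hw

theorem Joined.mono {X Y : Set V} (hXY : X ⊆ Y) {x y : V} (h : Joined G X x y) :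
    Joined G Y x y := by
  obtain ⟨p, hp⟩ := h
  exact ⟨p, fun z hz => hXY (hp z hz)⟩

theorem Joined.mem_right {X : Set V} {x y : V} (h : Joined G X x y) : y ∈ X := by
  obtain ⟨p, hp⟩ := h
  exact hp y p.end_mem_support

theorem Joined.mem_left {X : Set V} {x y : V} (h : Joined G X x y) : x ∈ X := by
  obtain ⟨p, hp⟩ := h
  exact hp x p.start_mem_support

theorem joined_adj {X : Set V} {x y : V} (h : G.Adj x y) (hx : x ∈ X) (hy : y ∈ X) :
    Joined G X x y :=
  ⟨h.toWalk, by simp [hx, hy]⟩

theorem Conn.of_root {X : Set V} (x : V) (hx : x ∈ X) (h : ∀ y ∈ X, Joined G X x y) : Conn G X :=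
  ⟨⟨x, hx⟩, fun a ha b hb => (h a ha).symm.trans (h b hb)⟩

theorem conn_singleton (x : V) : Conn G {x} :=
  .of_root x rfl fun y hy => by obtain rfl : y = x := hy; exact .refl rfl

theorem Conn.joined {X Y : Set V} (h : Conn G X) (hXY : X ⊆ Y) {x y : V} (hx : x ∈ X)
    (hy : y ∈ X) : Joined G Y x y :=
  (h.2 x hx y hy).mono hXY

theorem Conn.union {X Y : Set V} (hX : Conn G X) (hY : Conn G Y) {z : V} (h1 : z ∈ X)
    (h2 : z ∈ Y) : Conn G (X ∪ Y) :=
  .of_root z (Or.inl h1) fun _ hy => hy.elim (fun h => hX.joined Set.subset_union_left h1 h)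
    (fun h => hY.joined Set.subset_union_right h2 h)

theorem Conn.union_adj {X Y : Set V} (hX : Conn G X) (hY : Conn G Y) {a b : V} (ha : a ∈ X)
    (hb : b ∈ Y) (hab : G.Adj a b) : Conn G (X ∪ Y) :=
  .of_root a (Or.inl ha) fun _ hy => hy.elim (fun h => hX.joined Set.subset_union_left ha h)
    (fun h => (joined_adj hab (Or.inl ha) (Or.inr hb)).trans
      (hY.joined Set.subset_union_right hb h))

theorem joined_support {x y : V} (p : G.Walk x y) {z : V} (hz : z ∈ p.support) :
    Joined G {w | w ∈ p.support} x z := by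
  classical
  exact ⟨p.takeUntil z hz, fun w hw => p.support_takeUntil_subset_support hz hw⟩

theorem conn_support {x y : V} (p : G.Walk x y) : Conn G {w | w ∈ p.support} :=
  .of_root x p.start_mem_support fun _ hz => joined_support p hz

/-- The set reached from `x` inside `X` is connected. -/
theorem conn_reach {X : Set V} {x : V} (hx : x ∈ X) : Conn G {y | Joined G X x y} := by
  classical
  refine .of_root x (Joined.refl hx) fun y ⟨p, hp⟩ => ?_
  exact ⟨p, fun z hz => ⟨p.takeUntil z hz, fun w hw => hp w (p.support_takeUntil_subset_support hz hw)⟩⟩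

theorem Conn.connected {X : Set V} (h : Conn G X) : (G.induce X).Connected := by
  have : Nonempty X := h.1.to_subtype
  refine ⟨fun a b => ?_⟩
  obtain ⟨p, hp⟩ := h.2 a.1 a.2 b.1 b.2
  exact ⟨p.induce X hp⟩

/-- Any walk to `T` contains a path which meets `T` only at its end. -/
theorem first_hit (T : Set V) {x y : V} (p : G.Walk x y) (hy : y ∈ T) :
    ∃ y' ∈ T, ∃ q : G.Walk x y', q.IsPath ∧ (∀ z ∈ q.support, z ∈ p.support) ∧
      ∀ z ∈ q.support, z ∈ T → z = y' := by
  classical
  induction p with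
  | nil => exact ⟨_, hy, .nil, by simp, by simp, by simp⟩
  | @cons u v w h p ih =>
    by_cases hu : u ∈ T
    · exact ⟨u, hu, .nil, by simp, by simp, by simp⟩
    obtain ⟨y', hy', q, -, hq2, hq3⟩ := ih hy
    refine ⟨y', hy', _, ((q.cons h).toPath).2, fun z hz => ?_, fun z hz hzT => ?_⟩
    · have := (q.cons h).support_toPath_subset_support hz
      simp only [SimpleGraph.Walk.support_cons, List.mem_cons] at this ⊢
      exact this.imp_right (hq2 z)
    · have := (q.cons h).support_toPath_subset_support hz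
      simp only [SimpleGraph.Walk.support_cons, List.mem_cons] at this
      rcases this with rfl | hzq
      · exact absurd hzT hu
      · exact hq3 z hzq hzT

/-- A connected set meeting `S` and `T` contains a path from `S` to `T` with interior outside
both. -/
theorem Conn.exists_link {R S T : Set V} (hR : Conn G R) (hS : (R ∩ S).Nonempty)
    (hT : (R ∩ T).Nonempty) :
    ∃ x ∈ S, ∃ y ∈ T, ∃ p : G.Walk x y, p.IsPath ∧ (∀ z ∈ p.support, z ∈ R) ∧
      (∀ z ∈ p.support, z ∈ S → z = x) ∧ ∀ z ∈ p.support, z ∈ T → z = y := by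
  obtain ⟨a, haR, haS⟩ := hS
  obtain ⟨b, hbR, hbT⟩ := hT
  obtain ⟨w, hw⟩ := hR.2 a haR b hbR
  obtain ⟨y, hyT, q, -, hq2, hq3⟩ := first_hit T w hbT
  obtain ⟨x, hxS, r, hr1, hr2, hr3⟩ := first_hit S q.reverse haS
  refine ⟨x, hxS, y, hyT, r.reverse, hr1.reverse, fun z hz => ?_, fun z hz hzS => ?_,
    fun z hz hzT => ?_⟩
  · exact hw z (hq2 z (by simpa using hr2 z (by simpa using hz)))
  · exact hr3 z (by simpa using hz) hzS
  · exact hq3 z (by simpa using hr2 z (by simpa using hz)) hzT

end Vale.Agent.P235.Ladder
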