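import Vale.Agent.P235.L1
import Vale.Agent.P235.Graph
import Vale.Agent.P235.Ladder.Conn

/-!
Shortest path metrics of induced subgraphs, and exact gluing at a cut vertex.
-/

open Finset

namespace Vale.Agent.P235.Ladder

variable {V : Type} {G : SimpleGraph V} {ℓ : Sym2 V → ℝ}

theorem wlen_map {U : Type} {H : SimpleGraph U} (f : H →g G) {x y : U} (p : H.Walk x y) :
    wlen ℓ (p.map f) = wlen (fun e => ℓ (e.map f)) p := by
  unfold wlen
  rw [SimpleGraph.Walk.edges_map, List.map_map]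
  rfl

/-- A length preserving homomorphism does not increase distances. -/
theorem gdist_map_le {U : Type} {H : SimpleGraph U} (hℓ : ∀ e ∈ G.edgeSet, 0 < ℓ e) (f : H →g G)
    {ℓ' : Sym2 U → ℝ} (hlen : ∀ e, ℓ' e = ℓ (e.map f)) {x y : U} (h : H.Reachable x y) :
    gdist G ℓ (f x) (f y) ≤ gdist H ℓ' x y := by
  obtain rfl : ℓ' = fun e => ℓ (e.map f) := funext hlen
  have : Nonempty (H.Walk x y) := h
  exact le_ciInf fun p => (gdist_le hℓ (p.map f)).trans_eq (wlen_map f p)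

/-- The inherited lengths on an induced subgraph. -/
def lenOn (ℓ : Sym2 V → ℝ) (X : Set V) : Sym2 X → ℝ := fun e => ℓ (e.map Subtype.val)

/-- The induced subgraph on `X` embeds with distortion `K`. -/
def Emb (G : SimpleGraph V) (ℓ : Sym2 V → ℝ) (X : Set V) (K : ℝ) : Prop :=
  EmbedsL1 (gdist (G.induce X) (lenOn ℓ X)) K

/-- The inclusion of induced subgraphs. -/
def inclHom (G : SimpleGraph V) {X Y : Set V} (h : X ⊆ Y) : G.induce X →g G.induce Y where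
  toFun v := ⟨v.1, h v.2⟩
  map_rel' := id

theorem gdist_incl_le (hℓ : ∀ e ∈ G.edgeSet, 0 < ℓ e) {X Y : Set V} (h : X ⊆ Y)
    (hX : Conn G X) (a b : X) :
    gdist (G.induce Y) (lenOn ℓ Y) ⟨a.1, h a.2⟩ ⟨b.1, h b.2⟩ ≤
      gdist (G.induce X) (lenOn ℓ X) a b :=
  gdist_map_le (induce_len_pos hℓ) (inclHom G h)
    (fun e => by induction e using Sym2.ind with | _ u v => rfl) (hX.connected a b)

theorem emb_of_subsingleton (hℓ : ∀ e ∈ G.edgeSet, 0 < ℓ e) {X : Set V} (hX : X.Subsingleton)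
    (K : ℝ) : Emb G ℓ X K := by
  refine embedsL1_of_coords (ι := Unit) _ _ (fun _ _ => 0) (fun a b => ?_) (fun a b => ?_) <;>
  · obtain rfl : a = b := Subtype.ext (hX a.2 b.2)
    rw [gdist_self (G := G.induce X) (ℓ := lenOn ℓ X) (induce_len_pos hℓ)]
    simp

theorem exists_coords {α : Type} [Fintype α] {d : α → α → ℝ} {K : ℝ} (h : EmbedsL1 d K) (z : α) :
    ∃ (ι : Type) (_ : Fintype ι) (F : α → ι → ℝ), (∀ i, F z i = 0) ∧
      ∀ x y, d x y ≤ ∑ i, |F x i - F y i| ∧ ∑ i, |F x i - F y i| ≤ K * d x y := by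
  classical
  obtain ⟨w, hw0, hw⟩ := cuts_of_embedsL1 h
  refine ⟨Finset α, inferInstance,
    fun x S => w S * ((if x ∈ S then 1 else 0) - (if z ∈ S then 1 else 0)), by simp, fun x y => ?_⟩
  have he : ∀ S : Finset α, |w S * ((if x ∈ S then (1 : ℝ) else 0) - (if z ∈ S then 1 else 0)) -
      w S * ((if y ∈ S then 1 else 0) - (if z ∈ S then 1 else 0))| =
      w S * sep (decide (x ∈ S)) (decide (y ∈ S)) := by
    intro S
    rw [← mul_sub, abs_mul, abs_of_nonneg (hw0 S)]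
    congr 1
    by_cases hx : x ∈ S <;> by_cases hy : y ∈ S <;> simp [sep, hx, hy] <;> split_ifs <;> norm_num
  simp only [he]
  exact hw x y

/-- Gluing at `z`, with no loss. -/
theorem emb_glue [Finite V] (hℓ : ∀ e ∈ G.edgeSet, 0 < ℓ e) {X X₁ X₂ : Set V} {z : V} {K : ℝ}
    (hK : 0 ≤ K) (hX : Conn G X) (hX₁ : Conn G X₁) (hX₂ : Conn G X₂) (hu : X₁ ∪ X₂ = X)
    (hi : X₁ ∩ X₂ = {z}) (hadj : ∀ a ∈ X, ∀ b ∈ X, G.Adj a b →
      (a ∈ X₁ ∧ b ∈ X₁) ∨ (a ∈ X₂ ∧ b ∈ X₂))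
    (h₁ : Emb G ℓ X₁ K) (h₂ : Emb G ℓ X₂ K) : Emb G ℓ X K := by
  classical
  have : Fintype V := Fintype.ofFinite V
  have hz₁ : z ∈ X₁ := (hi.symm ▸ rfl : z ∈ X₁ ∩ X₂).1
  have hz₂ : z ∈ X₂ := (hi.symm ▸ rfl : z ∈ X₁ ∩ X₂).2
  have hs₁ : X₁ ⊆ X := hu ▸ Set.subset_union_left
  have hs₂ : X₂ ⊆ X := hu ▸ Set.subset_union_right
  obtain ⟨ι₁, _, F₁, hF₁z, hF₁⟩ := exists_coords h₁ ⟨z, hz₁⟩
  obtain ⟨ι₂, _, F₂, hF₂z, hF₂⟩ := exists_coords h₂ ⟨z, hz₂⟩
  set F : X → ι₁ ⊕ ι₂ → ℝ := fun a => Sum.elim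
    (fun i => if h : a.1 ∈ X₁ then F₁ ⟨a.1, h⟩ i else 0)
    (fun i => if h : a.1 ∈ X₂ then F₂ ⟨a.1, h⟩ i else 0) with hF
  have hor : ∀ a : X, a.1 ∈ X₁ ∨ a.1 ∈ X₂ := fun a => by
    exact (Set.ext_iff.1 hu a.1).2 a.2
  have hboth : ∀ a, a ∈ X₁ → a ∈ X₂ → a = z := fun a h h' => by
    have := Set.mem_inter h h'
    rw [hi] at this
    exact this
  have hl : ∀ a b : X, (ha : a.1 ∈ X₁) → (hb : b.1 ∈ X₁) →
      ∑ i, |F a i - F b i| = ∑ i, |F₁ ⟨a.1, ha⟩ i - F₁ ⟨b.1, hb⟩ i| := by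
    intro a b ha hb
    rw [Fintype.sum_sum_type]
    simp only [hF, Sum.elim_inl, Sum.elim_inr, dif_pos ha, dif_pos hb]
    rw [add_eq_left]
    refine sum_eq_zero fun i _ => ?_
    have key : ∀ c : X, c.1 ∈ X₁ → (if h : c.1 ∈ X₂ then F₂ ⟨c.1, h⟩ i else 0) = 0 := by
      intro c hc
      split_ifs with h
      · obtain ⟨c, hcX⟩ := c
        obtain rfl := hboth c hc h
        exact hF₂z i
      · rfl
    rw [key a ha, key b hb, sub_self, abs_zero]
  have hr : ∀ a b : X, (ha : a.1 ∈ X₂) → (hb : b.1 ∈ X₂) →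
      ∑ i, |F a i - F b i| = ∑ i, |F₂ ⟨a.1, ha⟩ i - F₂ ⟨b.1, hb⟩ i| := by
    intro a b ha hb
    rw [Fintype.sum_sum_type]
    simp only [hF, Sum.elim_inl, Sum.elim_inr, dif_pos ha, dif_pos hb]
    rw [add_eq_right]
    refine sum_eq_zero fun i _ => ?_
    have key : ∀ c : X, c.1 ∈ X₂ → (if h : c.1 ∈ X₁ then F₁ ⟨c.1, h⟩ i else 0) = 0 := by
      intro c hc
      split_ifs with h
      · obtain ⟨c, hcX⟩ := c
        obtain rfl := hboth c h hc
        exact hF₁z i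
      · rfl
    rw [key a ha, key b hb, sub_self, abs_zero]
  have hedge : ∀ a b : X, (G.induce X).Adj a b →
      ∑ i, |F a i - F b i| ≤ K * lenOn ℓ X s(a, b) := by
    intro a b hab
    rcases hadj a.1 a.2 b.1 b.2 hab with ⟨ha, hb⟩ | ⟨ha, hb⟩
    · rw [hl a b ha hb]
      refine (hF₁ _ _).2.trans (mul_le_mul_of_nonneg_left ?_ hK)
      refine (gdist_le (ℓ := lenOn ℓ X₁) (induce_len_pos hℓ)
        (show (G.induce X₁).Adj ⟨a.1, ha⟩ ⟨b.1, hb⟩ from hab).toWalk).trans_eq ?_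
      simp [wlen, lenOn]
    · rw [hr a b ha hb]
      refine (hF₂ _ _).2.trans (mul_le_mul_of_nonneg_left ?_ hK)
      refine (gdist_le (ℓ := lenOn ℓ X₂) (induce_len_pos hℓ)
        (show (G.induce X₂).Adj ⟨a.1, ha⟩ ⟨b.1, hb⟩ from hab).toWalk).trans_eq ?_
      simp [wlen, lenOn]
  have hwalk : ∀ {a b : X} (p : (G.induce X).Walk a b),
      ∑ i, |F a i - F b i| ≤ K * wlen (lenOn ℓ X) p := by
    intro a b p
    induction p with
    | nil => simp [wlen]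
    | @cons u v w h p ih =>
      calc ∑ i, |F u i - F w i| ≤ ∑ i, (|F u i - F v i| + |F v i - F w i|) :=
            sum_le_sum fun i _ => abs_sub_le _ _ _
        _ ≤ K * wlen (lenOn ℓ X) (p.cons h) := by
            rw [sum_add_distrib, wlen_cons, mul_add]
            exact add_le_add (hedge u v h) ih
  set d := gdist (G.induce X) (lenOn ℓ X) with hd
  have hd₁ : ∀ a b : X, (ha : a.1 ∈ X₁) → (hb : b.1 ∈ X₁) → d a b ≤ ∑ i, |F a i - F b i| := by
    intro a b ha hb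
    rw [hl a b ha hb]
    exact (gdist_incl_le hℓ hs₁ hX₁ ⟨a.1, ha⟩ ⟨b.1, hb⟩).trans (hF₁ _ _).1
  have hd₂ : ∀ a b : X, (ha : a.1 ∈ X₂) → (hb : b.1 ∈ X₂) → d a b ≤ ∑ i, |F a i - F b i| := by
    intro a b ha hb
    rw [hr a b ha hb]
    exact (gdist_incl_le hℓ hs₂ hX₂ ⟨a.1, ha⟩ ⟨b.1, hb⟩).trans (hF₂ _ _).1
  have hmix : ∀ a b : X, a.1 ∈ X₁ → a.1 ∉ X₂ → b.1 ∈ X₂ → b.1 ∉ X₁ →
      d a b ≤ ∑ i, |F a i - F b i| := by
    intro a b ha ha' hb hb'
    set c : X := ⟨z, hs₁ hz₁⟩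
    have hsum : ∑ i, |F a i - F b i| = ∑ i, |F a i - F c i| + ∑ i, |F c i - F b i| := by
      rw [hl a c ha hz₁, hr c b hz₂ hb, Fintype.sum_sum_type]
      simp only [hF, Sum.elim_inl, Sum.elim_inr, dif_pos ha, dif_pos hb, dif_neg ha', dif_neg hb']
      simp [c, hF₁z, hF₂z, abs_neg]
    rw [hsum]
    exact (gdist_triangle (ℓ := lenOn ℓ X) (induce_len_pos hℓ) hX.connected a c b).trans
      (add_le_add (hd₁ a c ha hz₁) (hd₂ c b hz₂ hb))
  refine embedsL1_of_coords _ _ F (fun a b => ?_) fun a b => ?_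
  · by_cases h1 : a.1 ∈ X₁ ∧ b.1 ∈ X₁
    · exact hd₁ a b h1.1 h1.2
    by_cases h2 : a.1 ∈ X₂ ∧ b.1 ∈ X₂
    · exact hd₂ a b h2.1 h2.2
    by_cases ha : a.1 ∈ X₁
    · have hb' : b.1 ∉ X₁ := fun h => h1 ⟨ha, h⟩
      have hb : b.1 ∈ X₂ := (hor b).resolve_left hb'
      exact hmix a b ha (fun h => h2 ⟨h, hb⟩) hb hb'
    · have ha₂ : a.1 ∈ X₂ := (hor a).resolve_left ha
      have hb' : b.1 ∉ X₂ := fun h => h2 ⟨ha₂, h⟩
      have hb : b.1 ∈ X₁ := (hor b).resolve_right hb'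
      have := hmix b a hb hb' ha₂ ha
      rw [show d b a = d a b from gdist_symm (induce_len_pos hℓ) hX.connected b a] at this
      exact this.trans_eq (sum_congr rfl fun i _ => abs_sub_comm _ _)
  · rcases hK.eq_or_lt with rfl | hK0
    · have : Nonempty ((G.induce X).Walk a b) := hX.connected a b
      simpa using hwalk (Classical.arbitrary ((G.induce X).Walk a b))
    · have : Nonempty ((G.induce X).Walk a b) := hX.connected a b
      rw [mul_comm, ← div_le_iff₀ hK0]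
      exact le_ciInf fun p => by rw [div_le_iff₀ hK0, mul_comm]; exact hwalk p

/-- Every connected subset embeds as soon as those without a cut vertex do. -/
theorem emb_of_blocks [Finite V] (hℓ : ∀ e ∈ G.edgeSet, 0 < ℓ e) (Y : Set V) {K : ℝ} (hK : 0 ≤ K)
    (hY : ∀ X ⊆ Y, Conn G X → (∀ z, Conn G (X \ {z})) → X.Nontrivial → Emb G ℓ X K) :
    ∀ X ⊆ Y, Conn G X → Emb G ℓ X K := by
  intro X
  induction hn : X.ncard using Nat.strong_induction_on generalizing X with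
  | _ n ih =>
  intro hXY hX
  classical
  by_cases hne : X.Nontrivial
  swap
  · exact emb_of_subsingleton hℓ (Set.not_nontrivial_iff.1 hne) K
  by_cases hcut : ∀ z, Conn G (X \ {z})
  · exact hY X hXY hX hcut hne
  push Not at hcut
  obtain ⟨z, hz⟩ := hcut
  have hzX : z ∈ X := by
    by_contra h
    rw [Set.sdiff_singleton_eq_self h] at hz
    exact hz hX
  obtain ⟨x₀, hx₀, hx₀z⟩ := hne.exists_ne z
  have hx₀' : x₀ ∈ X \ {z} := ⟨hx₀, hx₀z⟩
  obtain ⟨y₀, hy₀, hy₀'⟩ : ∃ y ∈ X \ {z}, ¬ Joined G (X \ {z}) x₀ y := by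
    by_contra hc
    push Not at hc
    exact hz (.of_root x₀ hx₀' hc)
  set S : Set V := {y | Joined G (X \ {z}) x₀ y} with hS
  have hSX : S ⊆ X \ {z} := fun y hy => hy.mem_right
  set X₁ := insert z S with hX₁def
  set X₂ := X \ S with hX₂def
  have hzS : z ∉ S := fun h => (hSX h).2 rfl
  -- from each vertex to `z` without leaving its side
  have hto : ∀ x ∈ X, x ≠ z → (x ∈ S → Joined G X₁ x z) ∧ (x ∉ S → Joined G X₂ x z) := by
    intro x hx hxz
    obtain ⟨w, hw⟩ := hX.2 x hx z hzX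
    obtain ⟨z', rfl, q, hq, hq2, hq3⟩ := first_hit {z} w rfl
    have hside : ∀ t ∈ q.support, t ≠ z' → Joined G (X \ {z'}) x t := fun t ht htz =>
      ⟨q.takeUntil t ht, fun u hu => ⟨hw u (hq2 u (q.support_takeUntil_subset_support ht hu)),
        fun huz : u = z' => by
          subst huz
          exact SimpleGraph.Walk.endpoint_notMem_support_takeUntil hq ht (Ne.symm htz) hu⟩⟩
    refine ⟨fun hxS => ⟨q, fun t ht => ?_⟩, fun hxS => ⟨q, fun t ht => ?_⟩⟩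
    · by_cases htz : t = z'
      · exact htz ▸ Set.mem_insert _ _
      · exact Set.mem_insert_of_mem _ (Joined.trans hxS (hside t ht htz))
    · refine ⟨hw t (hq2 t ht), fun htS => ?_⟩
      by_cases htz : t = z'
      · exact hzS (htz ▸ htS)
      · exact hxS (Joined.trans htS (hside t ht htz).symm)
  have hX₁ : Conn G X₁ := by
    refine .of_root z (Set.mem_insert _ _) fun y hy => ?_
    rcases hy with rfl | hy
    · exact .refl (Set.mem_insert _ _)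
    · exact ((hto y (hSX hy).1 (hSX hy).2).1 hy).symm
  have hX₂ : Conn G X₂ := by
    refine .of_root z ⟨hzX, hzS⟩ fun y hy => ?_
    by_cases hyz : y = z
    · rw [hyz]; exact .refl ⟨hzX, hzS⟩
    · exact ((hto y hy.1 hyz).2 hy.2).symm
  have hlt₁ : X₁.ncard < n := hn ▸ Set.ncard_lt_ncard
    (Set.ssubset_iff_of_subset (Set.insert_subset hzX fun y hy => (hSX hy).1) |>.2
      ⟨y₀, hy₀.1, fun h => h.elim hy₀.2 hy₀'⟩) (Set.toFinite _)
  have hlt₂ : X₂.ncard < n := hn ▸ Set.ncard_lt_ncard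
    (Set.ssubset_iff_of_subset Set.sdiff_subset |>.2
      ⟨x₀, hx₀, fun h => h.2 (Joined.refl hx₀')⟩) (Set.toFinite _)
  refine emb_glue hℓ hK hX hX₁ hX₂ ?_ ?_ ?_
    (ih _ hlt₁ X₁ rfl ((Set.insert_subset hzX fun y hy => (hSX hy).1).trans hXY) hX₁)
    (ih _ hlt₂ X₂ rfl (Set.sdiff_subset.trans hXY) hX₂) (z := z)
  · ext y
    constructor
    · rintro ((hy | hy) | hy)
      exacts [hy ▸ hzX, (hSX hy).1, hy.1]
    · intro hy
      by_cases hyS : y ∈ S
      · exact Or.inl (Or.inr hyS)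
      · exact Or.inr ⟨hy, hyS⟩
  · ext y
    constructor
    · rintro ⟨rfl | hy, hy'⟩
      · rfl
      · exact absurd hy hy'.2
    · intro hy
      rw [Set.mem_singleton_iff.1 hy]
      exact ⟨Or.inl rfl, hzX, hzS⟩
  · intro a ha b hb hab
    by_cases haz : a = z
    · by_cases hbS : b ∈ S
      · exact Or.inl ⟨Or.inl haz, Or.inr hbS⟩
      · exact Or.inr ⟨⟨ha, haz ▸ hzS⟩, hb, hbS⟩
    by_cases hbz : b = z
    · by_cases haS : a ∈ S
      · exact Or.inl ⟨Or.inr haS, Or.inl hbz⟩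
      · exact Or.inr ⟨⟨ha, haS⟩, hb, hbz ▸ hzS⟩
    have hj : Joined G (X \ {z}) a b := joined_adj hab ⟨ha, haz⟩ ⟨hb, hbz⟩
    by_cases haS : a ∈ S
    · exact Or.inl ⟨Or.inr haS, Or.inr (Joined.trans haS hj)⟩
    · exact Or.inr ⟨⟨ha, haS⟩, hb, fun hbS => haS (Joined.trans hbS hj.symm)⟩

end Vale.Agent.P235.Ladder
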