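import Vale.Agent.P235.Apex
import Vale.Agent.P235.Ladder.Glue
import Vale.Agent.P235.Ladder.Bridge

/-!
Graphs without a ladder minor embed into L1 with bounded distortion.
-/

open Finset

namespace Vale.Agent.P235.Ladder

variable {V : Type} {G : SimpleGraph V} {ℓ : Sym2 V → ℝ}

theorem embedsL1_comp {α β : Type} {d : α → α → ℝ} {d' : β → β → ℝ} {K : ℝ} (g : β → α)
    (hd : ∀ x y, d' x y = d (g x) (g y)) (h : EmbedsL1 d K) : EmbedsL1 d' K := by
  obtain ⟨Ω, _, μ, f, hf⟩ := h
  exact ⟨Ω, _, μ, fun x => f (g x), fun x y => by rw [hd]; exact hf (g x) (g y)⟩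

/-- A component of `G[W]` minus a set is an induced subgraph of `G`. -/
theorem emb_component [Finite V] (hℓ : ∀ e ∈ G.edgeSet, 0 < ℓ e) (W : Set V) (B : Set W) {K : ℝ}
    (h : ∀ X ⊆ Subtype.val '' B, Conn G X → Emb G ℓ X K)
    (c : ((G.induce W).induce B).ConnectedComponent) :
    EmbedsL1 (fun x y : c.supp =>
      gdist ((G.induce W).induce B) (fun e => lenOn ℓ W (e.map Subtype.val)) x.1 y.1) K := by
  classical
  let H := (G.induce W).induce B
  let val : B → V := fun v => v.1.1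
  set X : Set V := val '' c.supp
  let up : H →g G := ⟨val, fun h => h⟩
  have hsupp : ∀ {x y : B} (p : H.Walk x y), x ∈ c.supp → ∀ z ∈ p.support, z ∈ c.supp := by
    intro x y p hx z hz
    exact (SimpleGraph.ConnectedComponent.sound ⟨p.takeUntil z hz⟩).symm.trans hx
  have hX : Conn G X := by
    obtain ⟨v, hv⟩ := c.nonempty_supp
    refine .of_root (val v) ⟨v, hv, rfl⟩ ?_
    rintro _ ⟨u, hu, rfl⟩
    obtain ⟨p⟩ := SimpleGraph.ConnectedComponent.exact (hv.trans hu.symm)
    refine ⟨p.map up, fun z hz => ?_⟩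
    rw [SimpleGraph.Walk.support_map] at hz
    obtain ⟨w, hw, rfl⟩ := List.mem_map.1 hz
    exact ⟨w, hsupp p hv w hw, rfl⟩
  have hXsub : X ⊆ Subtype.val '' B := by
    rintro _ ⟨v, -, rfl⟩
    exact ⟨v.1, v.2, rfl⟩
  have hin : ∀ x : X, ∃ v ∈ c.supp, val v = x.1 := fun x => x.2
  choose back hback hval using hin
  have hval' : ∀ v : B, ∀ hv : v ∈ c.supp, back ⟨val v, v, hv, rfl⟩ = v := fun v hv =>
    Subtype.ext (Subtype.ext (hval ⟨val v, v, hv, rfl⟩))
  refine embedsL1_comp (fun x : c.supp => (⟨val x.1, x.1, x.2, rfl⟩ : X)) (fun x y => ?_)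
    (h X hXsub hX)
  refine le_antisymm ?_ ?_
  · let down : G.induce X →g H := ⟨back, fun {a b} hab => by
      change G.Adj (val (back a)) (val (back b))
      rw [hval, hval]
      exact hab⟩
    have := gdist_map_le (ℓ := fun e => lenOn ℓ W (e.map Subtype.val))
      (induce_len_pos (induce_len_pos hℓ)) down (ℓ' := lenOn ℓ X) (fun e => by
        induction e using Sym2.ind with
        | _ a b =>
          simp only [lenOn, Sym2.map_mk]
          exact congrArg ℓ (congrArg₂ (fun a b => s(a, b)) (hval a).symm (hval b).symm))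
      (hX.connected ⟨val x.1, x.1, x.2, rfl⟩ ⟨val y.1, y.1, y.2, rfl⟩)
    change gdist _ _ (back _) (back _) ≤ _ at this
    rwa [hval' x.1 x.2, hval' y.1 y.2] at this
  · have : Nonempty (H.Walk x.1 y.1) :=
      SimpleGraph.ConnectedComponent.exact (x.2.trans y.2.symm)
    refine le_ciInf fun p => ?_
    let inc : H.induce c.supp →g G.induce X := ⟨fun v => ⟨val v.1, v.1, v.2, rfl⟩, fun h => h⟩
    set p' := p.induce c.supp (hsupp p x.2)
    refine (gdist_le (ℓ := lenOn ℓ X) (induce_len_pos hℓ) (p'.map inc)).trans_eq ?_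
    rw [wlen_map]
    conv_rhs => rw [← p.map_induce (hsupp p x.2)]
    erw [wlen_map]
    refine congrArg (fun f => wlen f p') (funext fun e => ?_)
    induction e using Sym2.ind with
    | _ a b => rfl

/-- The recursion on the number of rungs. -/
theorem emb_of_no_bridge (k : ℕ) (hk : 0 < k) : ∀ j, ∃ K : ℝ, 1 ≤ K ∧
    ∀ {V : Type} [Fintype V] (G : SimpleGraph V) (ℓ : Sym2 V → ℝ), (∀ e ∈ G.edgeSet, 0 < ℓ e) →
      ¬ HasMinor G (ladder k) → ∀ W : Set V, TwoConn G W → ∀ s ∈ W, ∀ t ∈ W, s ≠ t →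
        ¬ Bridge G W s t j → Emb G ℓ W K := by
  obtain ⟨g, hg⟩ := exists_hitting_set k hk ((k - 1) * (k - 1) + 1)
  intro j
  induction j with
  | zero => exact ⟨1, le_rfl, fun _ _ _ _ W _ s hs t ht hst h => absurd (bridge_zero hs ht hst) h⟩
  | succ j ih =>
    obtain ⟨K, hK, hKemb⟩ := ih
    refine ⟨3000 * (K + Nat.log 2 (g + 2)), ?_, ?_⟩
    · have : (0 : ℝ) ≤ Nat.log 2 (g + 2) := Nat.cast_nonneg _
      linarith
    intro V _ G ℓ hℓ hG W hW s hs t ht hst hB
    classical
    obtain ⟨Z, hZ, hhit⟩ := hg G hG _ (fun H hH => hH.1) (no_packing_separators hk hG hW hs ht hst)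
    set A : Finset W := univ.filter fun v => v.1 ∈ insert s (insert t Z) with hA
    have hAcard : A.card ≤ g + 2 := by
      refine (card_le_card_of_injOn Subtype.val (fun v hv => (mem_filter.1 hv).2)
        Subtype.val_injective.injOn).trans ?_
      have := card_insert_le s (insert t Z)
      have := card_insert_le t Z
      omega
    have hAne : A.Nonempty := ⟨⟨s, hs⟩, by simp [hA]⟩
    set Y : Set V := Subtype.val '' ((↑A : Set W)ᶜ) with hY
    have hYmem : ∀ v ∈ Y, v ∈ W ∧ v ∉ insert s (insert t Z) := by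
      rintro _ ⟨v, hv, rfl⟩
      exact ⟨v.2, fun h => hv (by simpa [hA] using h)⟩
    have hall : ∀ X ⊆ Y, Conn G X → Emb G ℓ X K := by
      refine emb_of_blocks hℓ Y (by linarith) fun X hXY hXc hX hXn => ?_
      have hXW : X ⊆ W := fun v hv => (hYmem v (hXY hv)).1
      have hsX : s ∉ X := fun h => (hYmem s (hXY h)).2 (by simp)
      have htX : t ∉ X := fun h => (hYmem t (hXY h)).2 (by simp)
      have hj : Joined G (W \ X) s t := by
        by_contra hc
        obtain ⟨z, hz, hzX⟩ := hhit X ⟨hXc, hXW, hsX, htX, hc⟩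
        exact (hYmem z (hXY hzX)).2 (by simp [hz])
      obtain ⟨x, y, hx, hy, hxy, p, q, hp, hq, hpW, hqW, hpX, hqX, hpq⟩ :=
        two_paths hW hs ht hst hXW hXn
      exact hKemb G ℓ hℓ hG X ⟨hXc, hX⟩ x hx y hy hxy fun h =>
        hB (bridge_step hp hq hpW hqW hpX hqX hpq hXW hj h)
    have := apex_of_components (G := G.induce W) (ℓ := lenOn ℓ W) (induce_len_pos hℓ)
      hW.1.connected A hAne hK fun c => emb_component hℓ W _ hall c
    obtain ⟨Ω, _, μ, f, hf⟩ := this
    refine ⟨Ω, _, μ, f, fun x y => ⟨(hf x y).1, (hf x y).2.trans ?_⟩⟩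
    refine mul_le_mul_of_nonneg_right ?_
      (gdist_nonneg (G := G.induce W) (ℓ := lenOn ℓ W) (induce_len_pos hℓ) x y)
    gcongr

/-- Graphs without a ladder minor embed into L1 with bounded distortion. -/
theorem embeds_of_no_ladder (k : ℕ) : ∃ C : ℝ, ∀ (V : Type) [Finite V] (G : SimpleGraph V)
    (ℓ : Sym2 V → ℝ), G.Connected → (∀ e ∈ G.edgeSet, 0 < ℓ e) → ¬ HasMinor G (ladder k) →
      EmbedsL1 (gdist G ℓ) C := by
  rcases Nat.eq_zero_or_pos k with rfl | hk
  · exact ⟨1, fun V _ G ℓ _ _ h => absurd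
      ⟨fun w => w.2.elim0, fun w => w.2.elim0, fun w => w.2.elim0, fun w => w.2.elim0⟩ h⟩
  obtain ⟨K, hK, hKemb⟩ := emb_of_no_bridge k hk ((k - 1) * (k - 1) + 1)
  refine ⟨K, fun V _ G ℓ hc hℓ hG => ?_⟩
  have : Fintype V := Fintype.ofFinite V
  have huniv : Conn G Set.univ := by
    obtain ⟨v⟩ := hc.nonempty
    exact .of_root v trivial fun y _ => ⟨(hc v y).some, fun _ _ => trivial⟩
  have h : Emb G ℓ Set.univ K := emb_of_blocks hℓ Set.univ (by linarith)
    (fun X _ hXc hX hXn => by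
      obtain ⟨s, hs, t, ht, hst⟩ := hXn
      exact hKemb G ℓ hℓ hG X ⟨hXc, hX⟩ s hs t ht hst (no_long_bridge hk hG X s t))
    Set.univ subset_rfl huniv
  refine embedsL1_comp (fun v => (⟨v, trivial⟩ : (Set.univ : Set V))) (fun x y => ?_) h
  refine le_antisymm ?_ ?_
  · exact gdist_map_le hℓ (ℓ' := lenOn ℓ Set.univ) (SimpleGraph.Embedding.induce Set.univ).toHom
      (fun e => rfl) (huniv.connected ⟨x, trivial⟩ ⟨y, trivial⟩)
  · let f : G →g G.induce Set.univ := ⟨fun v => ⟨v, trivial⟩, fun h => h⟩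
    exact gdist_map_le (G := G.induce Set.univ) (induce_len_pos hℓ) f
      (fun e => by induction e using Sym2.ind with | _ u v => rfl) (hc x y)

end Vale.Agent.P235.Ladder
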