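import Vale.Agent.P235.Ladder.Conn

/-!
Menger's theorem for vertex sets, with connected sets in place of paths.
-/

open Finset

namespace Vale.Agent.P235.Ladder

variable {V : Type} {G H : SimpleGraph V}

theorem Joined.mono_graph (hle : H ≤ G) {X : Set V} {x y : V} (h : Joined H X x y) :
    Joined G X x y := by
  obtain ⟨p, hp⟩ := h
  exact ⟨p.mapLe hle, fun z hz => hp z (by simpa using hz)⟩

theorem Conn.mono_graph (hle : H ≤ G) {X : Set V} (h : Conn H X) : Conn G X :=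
  ⟨h.1, fun x hx y hy => (h.2 x hx y hy).mono_graph hle⟩

/-- Outside an endpoint of `e`, walks avoid the edge `e`. -/
theorem joined_deleteEdge {e : Sym2 V} {Y : Set V} {v : V} (hv : v ∈ e) (hY : v ∉ Y) {a b : V}
    (h : Joined G Y a b) : Joined (G.deleteEdges {e}) Y a b := by
  obtain ⟨p, hp⟩ := h
  have hne : e ∉ p.edges := fun hmem => by
    induction e using Sym2.ind with
    | _ c d =>
      rcases Sym2.mem_iff.1 hv with rfl | rfl
      · exact hY (hp _ (p.fst_mem_support_of_mem_edges hmem))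
      · exact hY (hp _ (p.snd_mem_support_of_mem_edges hmem))
  exact ⟨p.toDeleteEdge e hne, fun z hz => hp z (by simpa using hz)⟩

/-- Walking back from the end, either every vertex is reached or the deleted edge is met. -/
theorem last_crossing {e : Sym2 V} {Y : Set V} (P : V → Prop)
    (hP : ∀ z w, (G.deleteEdges {e}).Adj z w → z ∈ Y → w ∈ Y → P w → P z) :
    ∀ {z b : V} (p : G.Walk z b), (∀ u ∈ p.support, u ∈ Y) → P b →
      P z ∨ ∃ d, P d ∧ d ∈ e := by
  intro z b p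
  induction p with
  | nil => exact fun _ h => Or.inl h
  | @cons u v w h p ih =>
    intro hs hb
    simp only [SimpleGraph.Walk.support_cons, List.mem_cons, forall_eq_or_imp] at hs
    rcases ih hs.2 hb with hv | hd
    · by_cases he : s(u, v) = e
      · exact Or.inr ⟨v, hv, he ▸ Sym2.mem_mk_right u v⟩
      · exact Or.inl (hP u v (by simp [h, he]) hs.1 (hs.2 v p.start_mem_support) hv)
    · exact Or.inr hd

/-- One side of the induction step. -/
theorem menger_side [Finite V] {A B : Set V} {k : ℕ} {x y : V} {X : Finset V} [DecidableEq V]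
    (hxy : x ≠ y) (hxX : x ∉ X) (hX : X.card + 1 = k)
    (ih : ∀ A B : Set V, (∀ T : Finset V, T.card < k →
      ∃ a ∈ A, ∃ b ∈ B, Joined (G.deleteEdges {s(x, y)}) (↑T)ᶜ a b) →
      ∃ R : Fin k → Set V, Pairwise (Function.onFun Disjoint R) ∧ ∀ i,
        Conn (G.deleteEdges {s(x, y)}) (R i) ∧ (R i ∩ A).Nonempty ∧ (R i ∩ B).Nonempty)
    (h : ∀ T : Finset V, T.card < k → ∃ a ∈ A, ∃ b ∈ B, Joined G (↑T)ᶜ a b)
    (hsep : ∀ a ∈ A, ∀ b ∈ B, ¬ Joined (G.deleteEdges {s(x, y)}) (↑X)ᶜ a b)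
    (hy : ∀ a ∈ A, ¬ Joined (G.deleteEdges {s(x, y)}) (↑X)ᶜ a y) :
    ∃ S : V → Set V, (∀ ξ ∈ insert x X, ∀ η ∈ insert x X, ξ ≠ η → Disjoint (S ξ) (S η)) ∧
      ∀ ξ ∈ insert x X, Conn G (S ξ) ∧ ξ ∈ S ξ ∧ (S ξ ∩ A).Nonempty ∧
        ∀ z ∈ S ξ, z = ξ ∨
          (z ∉ insert x X ∧ ∃ a ∈ A, Joined (G.deleteEdges {s(x, y)}) (↑X)ᶜ a z) := by
  classical
  set G' := G.deleteEdges {s(x, y)} with hG'
  set U : Set V := {z | z ∈ insert x X} with hU
  obtain ⟨R, hRd, hR⟩ := ih A U (fun T hT => by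
    obtain ⟨a, ha, b, hb, w, hw⟩ := h T hT
    set Z : Set V := {z | z ∈ X ∨ z = x ∨ z = y} with hZ
    by_cases hmeet : ∃ u ∈ w.support, u ∈ Z
    · obtain ⟨u, huw, huZ⟩ := hmeet
      obtain ⟨z, hzZ, q, -, hq2, hq3⟩ := first_hit Z (w.takeUntil u huw) huZ
      have hsupp : ∀ t ∈ q.support, t ∈ w.support := fun t ht =>
        w.support_takeUntil_subset_support huw (hq2 t ht)
      obtain ⟨v, hv, hvz⟩ : ∃ v, v ∈ s(x, y) ∧ v ≠ z := by
        by_cases hxz : x = z
        · exact ⟨y, Sym2.mem_mk_right x y, fun hyz => hxy (hxz.trans hyz.symm)⟩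
        · exact ⟨x, Sym2.mem_mk_left x y, hxz⟩
      have hvZ : v ∈ Z := by
        rcases Sym2.mem_iff.1 hv with rfl | rfl <;> simp [hZ]
      have hj : Joined G' {t | t ∈ q.support} a z :=
        joined_deleteEdge hv (fun hvs => hvz (hq3 v hvs hvZ)) ⟨q, fun _ ht => ht⟩
      refine ⟨a, ha, z, ?_, hj.mono fun t ht => hw t (hsupp t ht)⟩
      rcases hzZ with hzX | rfl | rfl
      · exact mem_insert_of_mem hzX
      · exact mem_insert_self _ _
      · by_cases hzX : z ∈ X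
        · exact mem_insert_of_mem hzX
        · exact absurd (hj.mono fun t ht htX => hzX (hq3 t ht (Or.inl htX) ▸ htX)) (hy a ha)
    · push Not at hmeet
      refine absurd ?_ (hsep a ha b hb)
      exact (joined_deleteEdge (Sym2.mem_mk_left x y) (fun hx => hmeet x hx (Or.inr (Or.inl rfl)))
        (⟨w, fun _ hz => hz⟩ : Joined G {z | z ∈ w.support} a b)).mono
        fun z hz hzX => hmeet z hz (Or.inl hzX))
  choose a ha f hf p hp hpR hpA hpU using fun i => (hR i).1.exists_link (hR i).2.1 (hR i).2.2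
  have hd : ∀ i j, i ≠ j → ∀ z ∈ (p i).support, z ∉ (p j).support := fun i j hij z h1 h2 =>
    Set.disjoint_left.1 (hRd hij) (hpR i z h1) (hpR j z h2)
  have hfi : f.Injective := fun i j he => by
    by_contra hij
    exact hd i j hij _ (p i).end_mem_support (by rw [he]; exact (p j).end_mem_support)
  have hsurj : ∀ ξ ∈ insert x X, ∃ i, f i = ξ := by
    intro ξ hξ
    have heq : univ.image f = insert x X := eq_of_subset_of_card_le
      (image_subset_iff.2 fun i _ => hf i)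
      (by rw [card_image_of_injective _ hfi, card_insert_of_notMem hxX, card_univ,
        Fintype.card_fin]; omega)
    rw [← heq] at hξ
    simpa using hξ
  refine ⟨fun ξ => {z | ∃ i, f i = ξ ∧ z ∈ (p i).support}, fun ξ _ η _ hne => ?_, fun ξ hξ => ?_⟩
  · rw [Set.disjoint_left]
    rintro z ⟨i, hi, hzi⟩ ⟨j, hj, hzj⟩
    exact hd i j (fun he => hne (by rw [← hi, ← hj, he])) z hzi hzj
  · obtain ⟨i, rfl⟩ := hsurj ξ hξ
    have hS : {z | ∃ j, f j = f i ∧ z ∈ (p j).support} = {z | z ∈ (p i).support} := by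
      ext z
      exact ⟨fun ⟨j, hj, hz⟩ => hfi hj ▸ hz, fun hz => ⟨i, rfl, hz⟩⟩
    simp only [hS]
    refine ⟨(conn_support (p i)).mono_graph (G.deleteEdges_le _),
      (p i).end_mem_support, ⟨a i, (p i).start_mem_support, ha i⟩, fun z hz => ?_⟩
    rw [or_iff_not_imp_left]
    intro hzne
    have hzU : z ∉ insert x X := fun hm => hzne (hpU i z hz hm)
    refine ⟨hzU, a i, ha i, (p i).takeUntil z hz, fun t ht htX => ?_⟩
    have := hpU i t ((p i).support_takeUntil_subset_support hz ht) (mem_insert_of_mem htX)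
    subst this
    exact SimpleGraph.Walk.endpoint_notMem_support_takeUntil (hp i) hz (Ne.symm hzne) ht

/-- Menger's theorem: without a separator of fewer than `k` vertices there are `k` disjoint
connected sets meeting both `A` and `B`. -/
theorem menger [Finite V] : ∀ (G : SimpleGraph V) (A B : Set V) (k : ℕ),
    (∀ X : Finset V, X.card < k → ∃ a ∈ A, ∃ b ∈ B, Joined G (↑X)ᶜ a b) →
    ∃ R : Fin k → Set V, Pairwise (Function.onFun Disjoint R) ∧
      ∀ i, Conn G (R i) ∧ (R i ∩ A).Nonempty ∧ (R i ∩ B).Nonempty := by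
  intro G
  induction hn : G.edgeSet.ncard using Nat.strong_induction_on generalizing G with
  | _ n ih =>
  intro A B k h
  classical
  rcases G.edgeSet.eq_empty_or_nonempty with he | ⟨e, he⟩
  · set S := (Set.toFinite (A ∩ B)).toFinset with hS
    have hk : k ≤ S.card := by
      by_contra hc
      obtain ⟨a, ha, b, hb, p, hp⟩ := h S (not_le.1 hc)
      cases p with
      | nil => exact hp a (by simp) (by simp [hS, ha, hb])
      | cons hadj _ =>
        have := G.mem_edgeSet.2 hadj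
        rw [he] at this
        exact this
    obtain ⟨T, hTS, hT⟩ := exists_subset_card_eq hk
    set g := (T.equivFinOfCardEq hT).symm
    refine ⟨fun i => {(g i).1}, fun i j hij => ?_, fun i => ?_⟩
    · rw [Function.onFun, Set.disjoint_singleton]
      exact fun h' => hij (g.injective (Subtype.ext h'))
    · have := hTS (g i).2
      rw [hS, Set.Finite.mem_toFinset] at this
      exact ⟨conn_singleton _, ⟨_, rfl, this.1⟩, ⟨_, rfl, this.2⟩⟩
  set G' := G.deleteEdges {e} with hG'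
  have hlt : G'.edgeSet.ncard < n := by
    rw [← hn, hG', SimpleGraph.edgeSet_deleteEdges]
    exact Set.ncard_sdiff_singleton_lt_of_mem he
  have ih' := ih _ hlt G' rfl
  by_cases h' : ∀ X : Finset V, X.card < k → ∃ a ∈ A, ∃ b ∈ B, Joined G' (↑X)ᶜ a b
  · obtain ⟨R, hRd, hR⟩ := ih' A B k h'
    exact ⟨R, hRd, fun i => ⟨(hR i).1.mono_graph (G.deleteEdges_le _), (hR i).2⟩⟩
  push Not at h'
  obtain ⟨X, hX, hsep⟩ := h'
  obtain ⟨a, ha, b, hb, p, hp⟩ := h X hX
  -- orient the deleted edge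
  obtain ⟨x, ⟨a₀, ha₀, hax⟩, hxe⟩ : ∃ x, (∃ a ∈ A, Joined G' (↑X)ᶜ a x) ∧ x ∈ e := by
    rcases last_crossing (e := e) (Y := (↑X)ᶜ) (fun z => ∃ a ∈ A, Joined G' (↑X)ᶜ a z)
      (fun z w hzw hz hw ⟨c, hc, hj⟩ => ⟨c, hc, hj.trans (joined_adj hzw.symm hw hz)⟩) p.reverse
      (fun u hu => hp u (by simpa using hu)) ⟨a, ha, .refl (hp a p.start_mem_support)⟩ with
      ⟨c, hc, hj⟩ | h
    · exact absurd hj (hsep c hc b hb)
    · exact h
  obtain ⟨y, ⟨b₀, hb₀, hby⟩, hye⟩ : ∃ y, (∃ b ∈ B, Joined G' (↑X)ᶜ b y) ∧ y ∈ e := by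
    rcases last_crossing (e := e) (Y := (↑X)ᶜ) (fun z => ∃ b ∈ B, Joined G' (↑X)ᶜ b z)
      (fun z w hzw hz hw ⟨c, hc, hj⟩ => ⟨c, hc, hj.trans (joined_adj hzw.symm hw hz)⟩) p
      hp ⟨b, hb, .refl (hp b p.end_mem_support)⟩ with
      ⟨c, hc, hj⟩ | h
    · exact absurd hj.symm (hsep a ha c hc)
    · exact h
  have hRR : ∀ z, (∃ a ∈ A, Joined G' (↑X)ᶜ a z) → ¬ ∃ b ∈ B, Joined G' (↑X)ᶜ b z :=
    fun z ⟨c, hc, hj⟩ ⟨d, hd, hj'⟩ => hsep c hc d hd (hj.trans hj'.symm)
  have hxy : x ≠ y := fun he' => hRR x ⟨a₀, ha₀, hax⟩ ⟨b₀, hb₀, he' ▸ hby⟩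
  obtain rfl : e = s(x, y) := (Sym2.mem_and_mem_iff hxy).1 ⟨hxe, hye⟩
  have hxX : x ∉ X := fun hm => hax.mem_right hm
  have hyX : y ∉ X := fun hm => hby.mem_right hm
  have hcard : ∀ v ∈ s(x, y), k ≤ (insert v X).card := by
    intro v hv
    by_contra hc
    obtain ⟨c, hc', d, hd, hj⟩ := h (insert v X) (not_le.1 hc)
    exact hsep c hc' d hd ((joined_deleteEdge hv (by simp) hj).mono (by simp))
  have hXk : X.card + 1 = k := by
    have := hcard x (Sym2.mem_mk_left x y)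
    rw [card_insert_of_notMem hxX] at this
    omega
  obtain ⟨S, hSd, hS⟩ := menger_side hxy hxX hXk (fun A B => ih' A B k) h hsep
    fun c hc hj => hRR y ⟨c, hc, hj⟩ ⟨b₀, hb₀, hby⟩
  have hswap : G.deleteEdges {s(y, x)} = G' := by rw [hG', Sym2.eq_swap]
  obtain ⟨T, hTd, hT⟩ := menger_side (G := G) (A := B) (B := A) hxy.symm hyX hXk
    (by rw [hswap]; exact fun A B => ih' A B k)
    (fun T hT => by
      obtain ⟨c, hc, d, hd, hj⟩ := h T hT
      exact ⟨d, hd, c, hc, hj.symm⟩)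
    (by rw [hswap]; exact fun c hc d hd hj => hsep d hd c hc hj.symm)
    (by rw [hswap]; exact fun c hc hj => hRR x ⟨a₀, ha₀, hax⟩ ⟨c, hc, hj⟩)
  simp only [hswap] at hT
  have hU : (insert x X).card = k := by rw [card_insert_of_notMem hxX, hXk]
  set g := ((insert x X).equivFinOfCardEq hU).symm with hg
  set η : V → V := fun ξ => if ξ = x then y else ξ with hη
  have hηmem : ∀ ξ ∈ insert x X, η ξ ∈ insert y X := by
    intro ξ hξ
    by_cases hξx : ξ = x
    · simp [hη, hξx]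
    · simp [hη, hξx, mem_of_mem_insert_of_ne hξ hξx]
  have hηinj : ∀ ξ ∈ insert x X, ∀ ξ' ∈ insert x X, η ξ = η ξ' → ξ = ξ' := by
    intro ξ hξ ξ' hξ' hee
    by_cases hξx : ξ = x <;> by_cases hξ'x : ξ' = x
    · exact hξx.trans hξ'x.symm
    · simp [hη, hξx, hξ'x] at hee
      exact absurd (hee ▸ mem_of_mem_insert_of_ne hξ' hξ'x) hyX
    · simp [hη, hξx, hξ'x] at hee
      exact absurd (hee ▸ mem_of_mem_insert_of_ne hξ hξx) hyX
    · simpa [hη, hξx, hξ'x] using hee
  -- the two sides only share vertices of `X`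
  have hST : ∀ ξ ∈ insert x X, ∀ ξ' ∈ insert x X, ∀ z ∈ S ξ, z ∈ T (η ξ') → ξ = ξ' := by
    intro ξ hξ ξ' hξ' z hzS hzT
    rcases (hS ξ hξ).2.2.2 z hzS with rfl | ⟨hzU, hzA⟩
    · rcases (hT _ (hηmem ξ' hξ')).2.2.2 z hzT with hz | ⟨hzU', hzB⟩
      · by_cases hξ'x : ξ' = x
        · simp only [hη, hξ'x, if_true] at hz
          subst hz
          exact absurd (mem_of_mem_insert_of_ne hξ hxy.symm) hyX
        · simpa [hη, hξ'x] using hz
      · by_cases hzx : z = x
        · exact absurd hzB (hRR z (hzx ▸ ⟨a₀, ha₀, hax⟩))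
        · exact absurd (mem_insert_of_mem (mem_of_mem_insert_of_ne hξ hzx)) hzU'
    · rcases (hT _ (hηmem ξ' hξ')).2.2.2 z hzT with hz | ⟨hzU', hzB⟩
      · by_cases hξ'x : ξ' = x
        · simp only [hη, hξ'x, if_true] at hz
          subst hz
          exact absurd ⟨b₀, hb₀, hby⟩ (hRR z hzA)
        · simp only [hη, if_neg hξ'x] at hz
          exact absurd (hz ▸ hξ') hzU
      · exact absurd hzB (hRR z hzA)
  refine ⟨fun i => S (g i).1 ∪ T (η (g i).1), fun i j hij => ?_, fun i => ?_⟩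
  · have hne : (g i).1 ≠ (g j).1 := fun he' => hij (g.injective (Subtype.ext he'))
    have hi := (g i).2
    have hj := (g j).2
    rw [Function.onFun, Set.disjoint_left]
    rintro z (hz | hz) (hz' | hz')
    · exact Set.disjoint_left.1 (hSd _ hi _ hj hne) hz hz'
    · exact hne (hST _ hi _ hj z hz hz')
    · exact hne (hST _ hj _ hi z hz' hz).symm
    · exact Set.disjoint_left.1
        (hTd _ (hηmem _ hi) _ (hηmem _ hj) fun he' => hne (hηinj _ hi _ hj he')) hz hz'
  · obtain ⟨hSc, hξS, ⟨c, hc, hcA⟩, -⟩ := hS _ (g i).2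
    obtain ⟨hTc, hξT, ⟨d, hd, hdB⟩, -⟩ := hT _ (hηmem _ (g i).2)
    refine ⟨?_, ⟨c, Or.inl hc, hcA⟩, ⟨d, Or.inr hd, hdB⟩⟩
    by_cases hξx : (g i).1 = x
    · refine hSc.union_adj hTc hξS hξT ?_
      simp only [hη, hξx, if_true]
      exact G.mem_edgeSet.1 he
    · exact hSc.union hTc hξS (by simpa [hη, hξx] using hξT)

end Vale.Agent.P235.Ladder
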