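import Vale.Agent.P235.Ladder.Rails
import Vale.Agent.P235.Ladder.Menger

/-!
Without a ladder minor, families of connected sets have bounded hitting sets in terms of their
packing number.
-/

open Finset

namespace Vale.Agent.P235.Ladder

variable {V : Type} [Finite V] {G : SimpleGraph V}

/-- A pairwise intersecting family of connected sets has a path meeting all of them. -/
theorem exists_path_meeting (B : Set (Set V)) (hB : ∀ b ∈ B, Conn G b)
    (hI : ∀ b ∈ B, ∀ b' ∈ B, (b ∩ b').Nonempty) {b₀ : Set V} (hb₀ : b₀ ∈ B) :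
    ∃ u v, ∃ p : G.Walk u v, p.IsPath ∧ ∀ b ∈ B, ∃ z ∈ p.support, z ∈ b := by
  classical
  have : Fintype V := Fintype.ofFinite V
  by_contra hc
  push Not at hc
  have key : ∀ n, ∃ u v, ∃ p : G.Walk u v, p.IsPath ∧ n ≤ p.length ∧
      ∃ b ∈ B, v ∈ b ∧ ∀ z ∈ p.support, z ∈ b → z = v := by
    intro n
    induction n with
    | zero =>
      obtain ⟨v, hv⟩ := (hB b₀ hb₀).1
      exact ⟨v, v, .nil, by simp, le_rfl, b₀, hb₀, hv, by simp⟩
    | succ n ih =>
      obtain ⟨u, v, p, hp, hn, b, hb, hvb, hbp⟩ := ih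
      obtain ⟨b', hb', hb'p⟩ := hc u v p hp
      obtain ⟨z, hzb, hzb'⟩ := hI b hb b' hb'
      obtain ⟨w, hw⟩ := (hB b hb).2 v hvb z hzb
      obtain ⟨v', hv', q, hq, hq2, hq3⟩ := first_hit b' w hzb'
      have hl : 0 < q.length := by
        by_contra hc
        exact hb'p v p.end_mem_support ((q.eq_of_length_eq_zero (by omega)) ▸ hv')
      refine ⟨u, v', p.append q, ?_, ?_, b', hb', hv', fun t ht htb => ?_⟩
      · rw [SimpleGraph.Walk.isPath_def, SimpleGraph.Walk.support_append]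
        refine hp.support_nodup.append hq.support_nodup.tail fun t htp htq => ?_
        have htv : t = v := hbp t htp (hw t (hq2 t (List.mem_of_mem_tail htq)))
        subst htv
        have := hq.support_nodup
        rw [← SimpleGraph.Walk.cons_tail_support] at this
        exact (List.nodup_cons.1 this).1 htq
      · rw [SimpleGraph.Walk.length_append]; omega
      · rcases (SimpleGraph.Walk.mem_support_append_iff p q).1 ht with ht | ht
        · exact absurd htb (hb'p t ht)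
        · exact hq3 t ht htb
  obtain ⟨u, v, p, hp, hn, -⟩ := key (Fintype.card V)
  have := hp.length_lt
  omega

/-- A pairwise intersecting family of connected sets without a small hitting set gives a ladder. -/
theorem ladder_of_intersecting {k : ℕ} (hk : 0 < k) (B : Set (Set V)) (hB : ∀ b ∈ B, Conn G b)
    (hI : ∀ b ∈ B, ∀ b' ∈ B, (b ∩ b').Nonempty)
    (hS : ∀ S : Finset V, S.card ≤ 2 * ((k - 1) * (k - 1) + 1) → ∃ b ∈ B, ∀ z ∈ S, z ∉ b) :
    HasMinor G (ladder k) := by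
  classical
  set M := (k - 1) * (k - 1) + 1
  obtain ⟨b₀, hb₀, -⟩ := hS ∅ (by simp)
  obtain ⟨u, v, p, hp, hall⟩ := exists_path_meeting B hB hI hb₀
  set hit : ℕ → Prop := fun i => ∃ S : Finset V, S.card < M ∧
    ∀ b ∈ B, (∃ j < i, j ≤ p.length ∧ p.getVert j ∈ b) → ∃ z ∈ S, z ∈ b with hhit
  have hex : ∃ i, ¬ hit i := ⟨p.length + 1, fun ⟨S, hS1, hS2⟩ => by
    obtain ⟨b, hb, hbS⟩ := hS S (by omega)
    obtain ⟨z, hz, hzb⟩ := hall b hb
    obtain ⟨j, rfl, hj⟩ := SimpleGraph.Walk.mem_support_iff_exists_getVert.1 hz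
    obtain ⟨t, ht, htb⟩ := hS2 b hb ⟨j, by omega, hj, hzb⟩
    exact hbS t ht htb⟩
  have h0 : hit 0 := ⟨∅, by simp [M], fun b _ ⟨j, hj, _⟩ => absurd hj (by omega)⟩
  obtain ⟨i, hi⟩ : ∃ i, Nat.find hex = i + 1 :=
    Nat.exists_eq_succ_of_ne_zero fun h => Nat.find_spec hex (h ▸ h0)
  have hni : ¬ hit (i + 1) := hi ▸ Nat.find_spec hex
  obtain ⟨S, hScard, hShit⟩ : hit i := by
    by_contra hc
    have := Nat.find_min' hex hc
    omega
  -- a member avoiding a small set meets the path after `i`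
  have hafter : ∀ X : Finset V, X.card < M → ∃ b ∈ B, (∀ z ∈ X, z ∉ b) ∧
      ∃ j, i < j ∧ j ≤ p.length ∧ p.getVert j ∈ b := by
    intro X hX
    obtain ⟨b, hb, hbX⟩ := hS (S ∪ insert (p.getVert i) X) (by
      have := card_union_le S (insert (p.getVert i) X)
      have := card_insert_le (p.getVert i) X
      omega)
    obtain ⟨z, hz, hzb⟩ := hall b hb
    obtain ⟨j, rfl, hj⟩ := SimpleGraph.Walk.mem_support_iff_exists_getVert.1 hz
    refine ⟨b, hb, fun z hz => hbX z (by simp [hz]), j, ?_, hj, hzb⟩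
    rcases lt_trichotomy j i with h | h | h
    · obtain ⟨t, ht, htb⟩ := hShit b hb ⟨j, h, hj, hzb⟩
      exact absurd htb (hbX t (by simp [ht]))
    · exact absurd (h ▸ hzb) (hbX _ (by simp))
    · exact h
  have hbefore : ∀ X : Finset V, X.card < M → ∃ b ∈ B, (∀ z ∈ X, z ∉ b) ∧
      ∃ j ≤ i, p.getVert j ∈ b := by
    intro X hX
    by_contra hc
    push Not at hc
    refine hni ⟨X, hX, fun b hb ⟨j, hj, _, hjb⟩ => ?_⟩
    by_contra hc'
    push Not at hc'
    exact hc b hb hc' j (by omega) hjb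
  have hil : i < p.length := by
    obtain ⟨b, -, -, j, hj, hj', -⟩ := hafter ∅ (by simp [M])
    omega
  set P := p.take i
  set Q := p.drop (i + 1)
  have hPmem : ∀ z, z ∈ P.support → ∃ j ≤ i, p.getVert j = z := by
    intro z hz
    obtain ⟨j, rfl, -⟩ := SimpleGraph.Walk.mem_support_iff_exists_getVert.1 hz
    exact ⟨min i j, min_le_left _ _, (SimpleGraph.Walk.take_getVert p i j).symm⟩
  have hQmem : ∀ z, z ∈ Q.support → ∃ j, i < j ∧ j ≤ p.length ∧ p.getVert j = z := by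
    intro z hz
    obtain ⟨j, rfl, hj⟩ := SimpleGraph.Walk.mem_support_iff_exists_getVert.1 hz
    rw [SimpleGraph.Walk.drop_length] at hj
    exact ⟨i + 1 + j, by omega, by omega, (SimpleGraph.Walk.drop_getVert p (i + 1) j).symm⟩
  have hPQ : ∀ z ∈ P.support, z ∉ Q.support := by
    intro z hz hz'
    obtain ⟨a, ha, rfl⟩ := hPmem z hz
    obtain ⟨b, hb, hb', hab⟩ := hQmem _ hz'
    have := hp.getVert_injOn hb' (show a ≤ p.length by omega) hab
    omega
  obtain ⟨R, hRd, hR⟩ := menger G {z | z ∈ P.support} {z | z ∈ Q.support} M (fun X hX => by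
    obtain ⟨b, hb, hbX, j, hji, hjb⟩ := hbefore X hX
    obtain ⟨b', hb', hbX', j', hj', hjl, hjb'⟩ := hafter X hX
    obtain ⟨z, hz, hz'⟩ := hI b hb b' hb'
    refine ⟨p.getVert j, ?_, p.getVert j', ?_,
      ((hB b hb).joined (fun t ht htX => hbX t htX ht) hjb hz).trans
        ((hB b' hb').joined (fun t ht htX => hbX' t htX ht) hz' hjb')⟩
    · have h1 : P.getVert j = p.getVert j :=
        (SimpleGraph.Walk.take_getVert p i j).trans (by rw [min_eq_right hji])
      exact h1 ▸ P.getVert_mem_support j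
    · have h1 : Q.getVert (j' - (i + 1)) = p.getVert j' :=
        (SimpleGraph.Walk.drop_getVert p (i + 1) _).trans
          (congrArg p.getVert (show i + 1 + (j' - (i + 1)) = j' by omega))
      exact h1 ▸ Q.getVert_mem_support _)
  exact ladder_of_rungs P Q (hp.take i) (hp.drop (i + 1)) hPQ hk
    (show (k - 1) * (k - 1) < M by omega) R hRd (fun j => (hR j).1) (fun j => (hR j).2.1)
    fun j => (hR j).2.2

/-- `F` has no `n` pairwise disjoint members. -/
def NoPacking (F : Set (Set V)) (n : ℕ) : Prop :=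
  ∀ R : Fin n → Set V, (∀ i, R i ∈ F) → ¬ Pairwise (Function.onFun Disjoint R)

/-- Erdős–Pósa for connected sets in graphs without a ladder minor. -/
theorem exists_hitting_set (k : ℕ) (hk : 0 < k) : ∀ n, ∃ g : ℕ, ∀ {V : Type} [Finite V]
    (G : SimpleGraph V), ¬ HasMinor G (ladder k) → ∀ F : Set (Set V), (∀ H ∈ F, Conn G H) →
      NoPacking F n → ∃ Z : Finset V, Z.card ≤ g ∧ ∀ H ∈ F, ∃ z ∈ Z, z ∈ H := by
  intro n
  induction n with
  | zero => exact ⟨0, fun _ _ F _ hF => absurd (fun i => i.elim0) (hF Fin.elim0 fun i => i.elim0)⟩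
  | succ n ih =>
    obtain ⟨g, hg⟩ := ih
    set M := (k - 1) * (k - 1) + 1
    refine ⟨4 * M + (g + g), fun {V} _ G hG F hFc hF => ?_⟩
    classical
    set av : Finset V → Set V → Prop := fun S H => H ∈ F ∧ ∀ z ∈ S, z ∉ H with hav
    set lk : Finset V → Set V → Set V → Prop := fun S H H' =>
      ∀ x ∈ H, ∀ y ∈ H', Joined G (↑S)ᶜ x y with hlk
    by_cases hsplit : ∃ S : Finset V, S.card ≤ 4 * M ∧ ∃ H H', av S H ∧ av S H' ∧ ¬ lk S H H'
    · obtain ⟨S, hS, H, H', hH, hH', hn⟩ := hsplit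
      have hsub : ∀ {K}, av S K → K ⊆ (↑S : Set V)ᶜ := fun hK z hz hzS => hK.2 z hzS hz
      have hself : ∀ K, av S K → lk S K K := fun K hK x hx y hy =>
        (hFc K hK.1).joined (hsub hK) hx hy
      set F₁ := {K | av S K ∧ lk S H K}
      set F₂ := {K | av S K ∧ ¬ lk S H K}
      have hdisj : ∀ K₁ ∈ F₁, ∀ K₂ ∈ F₂, Disjoint K₁ K₂ := by
        rintro K₁ ⟨hK₁, h1⟩ K₂ ⟨hK₂, h2⟩
        rw [Set.disjoint_left]
        exact fun z hz hz' => h2 fun x hx y hy =>
          (h1 x hx z hz).trans (hself K₂ hK₂ z hz' y hy)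
      have hsmall : ∀ F' : Set (Set V), (∀ K ∈ F', K ∈ F) → ∀ K₀ ∈ F,
          (∀ K ∈ F', Disjoint K₀ K) → NoPacking F' n := by
        intro F' hF' K₀ hK₀ hd R hR hRd
        refine hF (Fin.cons K₀ R) (Fin.cases hK₀ fun i => hF' _ (hR i)) fun i j hij => ?_
        cases i using Fin.cases <;> cases j using Fin.cases
        · exact absurd rfl hij
        · simpa [Function.onFun] using hd _ (hR _)
        · simpa [Function.onFun] using (hd _ (hR _)).symm
        · simpa [Function.onFun] using hRd fun h => hij (congrArg Fin.succ h)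
      obtain ⟨Z₁, hZ₁, hh₁⟩ := hg G hG F₁ (fun K hK => hFc K hK.1.1)
        (hsmall F₁ (fun K hK => hK.1.1) H' hH'.1 fun K hK => (hdisj K hK H' ⟨hH', hn⟩).symm)
      obtain ⟨Z₂, hZ₂, hh₂⟩ := hg G hG F₂ (fun K hK => hFc K hK.1.1)
        (hsmall F₂ (fun K hK => hK.1.1) H hH.1 fun K hK => hdisj H ⟨hH, hself H hH⟩ K hK)
      refine ⟨S ∪ (Z₁ ∪ Z₂), ?_, fun K hK => ?_⟩
      · have := card_union_le S (Z₁ ∪ Z₂)
        have := card_union_le Z₁ Z₂
        omega
      by_cases hKS : ∃ z ∈ S, z ∈ K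
      · obtain ⟨z, hz, hzK⟩ := hKS
        exact ⟨z, mem_union_left _ hz, hzK⟩
      push Not at hKS
      by_cases hKl : lk S H K
      · obtain ⟨z, hz, hzK⟩ := hh₁ K ⟨⟨hK, hKS⟩, hKl⟩
        exact ⟨z, mem_union_right _ (mem_union_left _ hz), hzK⟩
      · obtain ⟨z, hz, hzK⟩ := hh₂ K ⟨⟨hK, hKS⟩, hKl⟩
        exact ⟨z, mem_union_right _ (mem_union_right _ hz), hzK⟩
    by_cases hex : ∃ S : Finset V, S.card ≤ 4 * M ∧ ∀ H ∈ F, ∃ z ∈ S, z ∈ H
    · obtain ⟨S, hS, hh⟩ := hex
      exact ⟨S, by omega, hh⟩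
    push Not at hsplit hex
    -- now the regions of the members avoiding small sets intersect
    set region : Finset V → Set V := fun S =>
      {y | ∃ H, av S H ∧ ∃ x ∈ H, Joined G (↑S)ᶜ x y} with hregion
    refine absurd (ladder_of_intersecting hk {C | ∃ S : Finset V, S.card ≤ 2 * M ∧ C = region S}
      ?_ ?_ fun S hS => ⟨region S, ⟨S, hS, rfl⟩, fun z hzS ⟨H, _, x, _, hj⟩ =>
        hj.mem_right hzS⟩) hG
    · rintro _ ⟨S, hS, rfl⟩
      obtain ⟨H, hH, hHS⟩ := hex S (by omega)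
      obtain ⟨x, hx⟩ := (hFc H hH).1
      have he : region S = {y | Joined G (↑S)ᶜ x y} := by
        ext y
        exact ⟨fun ⟨K, hK, x', hx', hj⟩ =>
          (hsplit S (by omega) H K ⟨hH, hHS⟩ hK x hx x' hx').trans hj,
          fun hj => ⟨H, ⟨hH, hHS⟩, x, hx, hj⟩⟩
      rw [he]
      exact conn_reach fun hxS => hHS x hxS hx
    · rintro _ ⟨S, hS, rfl⟩ _ ⟨S', hS', rfl⟩
      obtain ⟨H, hH, hHS⟩ := hex (S ∪ S') (by have := card_union_le S S'; omega)
      obtain ⟨x, hx⟩ := (hFc H hH).1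
      exact ⟨x, ⟨H, ⟨hH, fun z hz => hHS z (mem_union_left _ hz)⟩, x, hx,
          .refl fun h => hHS x (mem_union_left _ h) hx⟩,
        ⟨H, ⟨hH, fun z hz => hHS z (mem_union_right _ hz)⟩, x, hx,
          .refl fun h => hHS x (mem_union_right _ h) hx⟩⟩

end Vale.Agent.P235.Ladder
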