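import Vale.Agent.P235.Ladder.Conn

/-!
Two disjoint paths and many disjoint connected sets meeting both give a ladder minor.
-/

open Finset

namespace Vale.Agent.P235.Ladder

variable {V : Type} {G : SimpleGraph V}

/-- `H` is a minor of `G`: disjoint connected branch sets, adjacent along the edges of `H`. -/
def HasMinor {W : Type} (G : SimpleGraph V) (H : SimpleGraph W) : Prop :=
  ∃ φ : W → Set V, (∀ w, (G.induce (φ w)).Connected) ∧ Pairwise (Function.onFun Disjoint φ) ∧
    ∀ u w, H.Adj u w → ∃ a ∈ φ u, ∃ b ∈ φ w, G.Adj a b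

/-- The ladder with `k` rungs. -/
def ladder (k : ℕ) : SimpleGraph (Fin 2 × Fin k) :=
  (SimpleGraph.pathGraph 2).boxProd (SimpleGraph.pathGraph k)

/-- Erdős–Szekeres, for points with distinct coordinates. -/
theorem monotone_subset {ι : Type} (a b : ι → ℕ) (ha : a.Injective)
    (hb : b.Injective) : ∀ (r s : ℕ) (I : Finset ι), r * s < I.card →
      (∃ S ⊆ I, S.card = r + 1 ∧ ∀ i ∈ S, ∀ j ∈ S, a i < a j → b i < b j) ∨
      (∃ S ⊆ I, S.card = s + 1 ∧ ∀ i ∈ S, ∀ j ∈ S, a i < a j → b j < b i) := by
  classical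
  intro r
  induction r with
  | zero =>
    intro s I hI
    obtain ⟨i, hi⟩ := card_pos.1 (by omega : 0 < I.card)
    exact Or.inl ⟨{i}, by simp [hi], by simp, by simp⟩
  | succ r ih =>
    intro s I hI
    set E := I.filter fun i => ∀ j ∈ I, a i < a j → b j < b i with hE
    by_cases hs : s + 1 ≤ E.card
    · obtain ⟨S, hSE, hS⟩ := exists_subset_card_eq hs
      refine Or.inr ⟨S, hSE.trans (filter_subset _ _), hS, fun i hi j hj h => ?_⟩
      exact (mem_filter.1 (hSE hi)).2 j (mem_filter.1 (hSE hj)).1 h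
    have hcard : r * s < (I \ E).card := by
      rw [card_sdiff_of_subset (filter_subset _ _)]
      rw [Nat.succ_mul] at hI
      change r * s < I.card - E.card
      omega
    rcases ih s _ hcard with ⟨S, hSI, hS, hmon⟩ | ⟨S, hSI, hS, hmon⟩
    · obtain ⟨i, hi, himax⟩ := exists_max_image S a (card_pos.1 (by omega))
      obtain ⟨hiI, hiE⟩ := mem_sdiff.1 (hSI hi)
      obtain ⟨j, hjI, hij, hbij⟩ : ∃ j ∈ I, a i < a j ∧ b i < b j := by
        by_contra hc
        push Not at hc
        refine hiE (mem_filter.2 ⟨hiI, fun j hj h => lt_of_le_of_ne (hc j hj h) fun he => ?_⟩)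
        rw [hb he] at h
        exact lt_irrefl _ h
      have hjS : j ∉ S := fun h => absurd (himax j h) (not_le.2 hij)
      refine Or.inl ⟨insert j S, insert_subset hjI (hSI.trans sdiff_subset),
        by rw [card_insert_of_notMem hjS, hS], fun x hx y hy h => ?_⟩
      by_cases hxj : x = j
      · subst hxj
        by_cases hyj : y = x
        · subst hyj; exact absurd h (lt_irrefl _)
        · exact absurd h (not_lt.2 ((himax y (mem_of_mem_insert_of_ne hy hyj)).trans hij.le))
      have hxS := mem_of_mem_insert_of_ne hx hxj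
      by_cases hyj : y = j
      · subst hyj
        rcases (himax x hxS).lt_or_eq with h' | h'
        · exact (hmon x hxS i hi h').trans hbij
        · rw [ha h']; exact hbij
      · exact hmon x hxS y (mem_of_mem_insert_of_ne hy hyj) h
    · exact Or.inr ⟨S, hSI.trans sdiff_subset, hS, hmon⟩

/-- The vertices of `p` with index at least `lo` and less than `hi`. -/
def seg {x y : V} (p : G.Walk x y) (lo hi : ℕ) : Set V :=
  {z | ∃ i, lo ≤ i ∧ i < hi ∧ i ≤ p.length ∧ p.getVert i = z}

theorem seg_conn {x y : V} (p : G.Walk x y) {lo hi : ℕ} (h1 : lo < hi) (h2 : lo ≤ p.length) :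
    Conn G (seg p lo hi) := by
  refine .of_root (p.getVert lo) ⟨lo, le_rfl, h1, h2, rfl⟩ ?_
  rintro _ ⟨i, hi1, hi2, hi3, rfl⟩
  induction i, hi1 using Nat.le_induction with
  | base => exact .refl ⟨lo, le_rfl, h1, h2, rfl⟩
  | succ i hle ih =>
    exact (ih (by omega) (by omega)).trans (joined_adj (p.adj_getVert_succ (by omega))
      ⟨i, hle, by omega, by omega, rfl⟩ ⟨i + 1, by omega, hi2, hi3, rfl⟩)

/-- The right end of the interval which starts at `a j`. -/
def next {k : ℕ} (len : ℕ) (a : Fin k → ℕ) (j : Fin k) : ℕ :=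
  if h : j.1 + 1 < k then a ⟨j.1 + 1, h⟩ else len + 1

theorem lt_next {k len : ℕ} {a : Fin k → ℕ} (ha : StrictMono a) (hle : ∀ j, a j ≤ len)
    (j : Fin k) : a j < next len a j := by
  unfold next
  split_ifs with h
  · exact ha (show j.1 < j.1 + 1 by omega)
  · exact Nat.lt_succ_of_le (hle j)

theorem next_le {k len : ℕ} {a : Fin k → ℕ} (ha : StrictMono a) {i j : Fin k} (h : i < j) :
    next len a i ≤ a j := by
  have hij : i.1 + 1 ≤ j.1 := h
  rw [next, dif_pos (hij.trans_lt j.2)]
  exact ha.monotone (show (⟨i.1 + 1, _⟩ : Fin k) ≤ j from hij)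

theorem seg_disjoint {x y : V} {p : G.Walk x y} (hp : p.IsPath) {k : ℕ} {a : Fin k → ℕ}
    (ha : StrictMono a) {i j : Fin k} (hij : i ≠ j) :
    Disjoint (seg p (a i) (next p.length a i)) (seg p (a j) (next p.length a j)) := by
  rw [Set.disjoint_left]
  rintro _ ⟨u, hu1, hu2, hu3, rfl⟩ ⟨v, hv1, hv2, hv3, hv⟩
  obtain rfl : v = u := hp.getVert_injOn hv3 hu3 hv
  rcases lt_or_gt_of_ne hij with h | h
  · have := next_le (len := p.length) ha h; omega
  · have := next_le (len := p.length) ha h; omega

theorem seg_adj {x y : V} (p : G.Walk x y) {k : ℕ} {a : Fin k → ℕ} (ha : StrictMono a)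
    (hle : ∀ j, a j ≤ p.length) {i j : Fin k} (hij : i.1 + 1 = j.1) :
    ∃ u ∈ seg p (a i) (next p.length a i), ∃ v ∈ seg p (a j) (next p.length a j), G.Adj u v := by
  have hn : next p.length a i = a j := by
    rw [next, dif_pos (hij.trans_lt j.2)]
    congr
  have h1 : a i < a j := ha (show i.1 < j.1 by omega)
  have h2 := hle j
  refine ⟨p.getVert (a j - 1), ⟨a j - 1, by omega, by omega, by omega, rfl⟩, p.getVert (a j),
    ⟨a j, le_rfl, lt_next ha hle j, h2, rfl⟩, ?_⟩
  have := p.adj_getVert_succ (show a j - 1 < p.length by omega)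
  rwa [show a j - 1 + 1 = a j by omega] at this

/-- Rungs sorted along both paths give a ladder. -/
theorem ladder_of_sorted {x x' y y' : V} (p : G.Walk x x') (q : G.Walk y y') (hp : p.IsPath)
    (hq : q.IsPath) (hpq : ∀ z ∈ p.support, z ∉ q.support) {k : ℕ}
    (a b : Fin k → ℕ) (ha : StrictMono a) (hb : StrictMono b) (hal : ∀ j, a j ≤ p.length)
    (hbl : ∀ j, b j ≤ q.length) (r : ∀ j, G.Walk (p.getVert (a j)) (q.getVert (b j)))
    (hr : ∀ j, (r j).IsPath) (hrp : ∀ j, ∀ z ∈ (r j).support, z ∈ p.support → z = p.getVert (a j))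
    (hrq : ∀ j, ∀ z ∈ (r j).support, z ∈ q.support → z = q.getVert (b j))
    (hdis : ∀ i j, i ≠ j → ∀ z ∈ (r i).support, z ∉ (r j).support) :
    HasMinor G (ladder k) := by
  classical
  set top : Fin k → Set V := fun j => seg p (a j) (next p.length a j) ∪
    {z | z ∈ (r j).support ∧ z ≠ q.getVert (b j)} with htop
  set bot : Fin k → Set V := fun j => seg q (b j) (next q.length b j) with hbot
  have hxP : ∀ j, p.getVert (a j) ∈ p.support := fun j => p.getVert_mem_support _
  have hne : ∀ j, p.getVert (a j) ≠ q.getVert (b j) := fun j he =>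
    hpq _ (hxP j) (he ▸ q.getVert_mem_support _)
  have htopc : ∀ j, Conn G (top j) := by
    intro j
    refine (seg_conn p (lt_next ha hal j) (hal j)).union
      (.of_root (p.getVert (a j)) ⟨(r j).start_mem_support, hne j⟩ ?_)
      (z := p.getVert (a j)) ⟨a j, le_rfl, lt_next ha hal j, hal j, rfl⟩
      ⟨(r j).start_mem_support, hne j⟩
    rintro z ⟨hz, hzne⟩
    refine ⟨(r j).takeUntil z hz, fun w hw => ⟨(r j).support_takeUntil_subset_support hz hw, ?_⟩⟩
    rintro rfl
    exact SimpleGraph.Walk.endpoint_notMem_support_takeUntil (hr j) hz hzne.symm hw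
  have hseg : ∀ {u v : V} (w : G.Walk u v) (l h : ℕ), ∀ z ∈ seg w l h, z ∈ w.support := by
    rintro u v w l h _ ⟨i, _, _, _, rfl⟩
    exact w.getVert_mem_support i
  have htb : ∀ i j, Disjoint (top i) (bot j) := by
    intro i j
    rw [Set.disjoint_left]
    rintro z (hz | ⟨hz, hzne⟩) hz'
    · exact hpq z (hseg _ _ _ z hz) (hseg _ _ _ z hz')
    · exact hzne (hrq i z hz (hseg _ _ _ z hz'))
  have htt : ∀ i j, i ≠ j → Disjoint (top i) (top j) := by
    have key : ∀ i j, i ≠ j → ∀ z ∈ seg p (a i) (next p.length a i), z ∉ (r j).support := by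
      intro i j hij z hz hz'
      obtain rfl := hrp j z hz' (hseg _ _ _ z hz)
      exact Set.disjoint_left.1 (seg_disjoint hp ha hij) hz
        ⟨a j, le_rfl, lt_next ha hal j, hal j, rfl⟩
    intro i j hij
    rw [Set.disjoint_left]
    rintro z (hz | ⟨hz, _⟩) (hz' | ⟨hz', _⟩)
    · exact Set.disjoint_left.1 (seg_disjoint hp ha hij) hz hz'
    · exact key i j hij z hz hz'
    · exact key j i hij.symm z hz' hz
    · exact hdis i j hij z hz hz'
  have hrung : ∀ j, ∃ u ∈ top j, ∃ v ∈ bot j, G.Adj u v := by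
    intro j
    have hl : 0 < (r j).length := by
      by_contra hc
      exact hne j ((r j).eq_of_length_eq_zero (by omega))
    refine ⟨(r j).getVert ((r j).length - 1), Or.inr ⟨(r j).getVert_mem_support _, ?_⟩,
      q.getVert (b j), ⟨b j, le_rfl, lt_next hb hbl j, hbl j, rfl⟩, ?_⟩
    · intro he
      have := (hr j).getVert_injOn (show _ ≤ (r j).length by omega) (le_refl (r j).length)
        (he.trans (r j).getVert_length.symm)
      omega
    · have := (r j).adj_getVert_succ (show (r j).length - 1 < (r j).length by omega)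
      rwa [show (r j).length - 1 + 1 = (r j).length by omega,
        SimpleGraph.Walk.getVert_length] at this
  refine ⟨fun w => if w.1 = 0 then top w.2 else bot w.2, ?_, ?_, ?_⟩
  · intro w
    change (G.induce (if w.1 = 0 then top w.2 else bot w.2)).Connected
    by_cases hw : w.1 = 0
    · rw [if_pos hw]; exact (htopc _).connected
    · rw [if_neg hw]; exact (seg_conn q (lt_next hb hbl _) (hbl _)).connected
  · rintro ⟨u, i⟩ ⟨v, j⟩ huv
    simp only [Function.onFun]
    fin_cases u <;> fin_cases v <;> simp at huv ⊢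
    · exact htt i j huv
    · exact htb i j
    · exact (htb j i).symm
    · exact seg_disjoint hq hb huv
  · rintro ⟨u, i⟩ ⟨v, j⟩ huv
    simp only [ladder, SimpleGraph.boxProd_adj] at huv
    rcases huv with ⟨hu, rfl⟩ | ⟨hi, rfl⟩
    · obtain ⟨s, hs, t, ht, hst⟩ := hrung i
      fin_cases u <;> fin_cases v <;> simp at hu ⊢
      · exact ⟨s, hs, t, ht, hst⟩
      · exact ⟨t, ht, s, hs, hst.symm⟩
    · rw [SimpleGraph.pathGraph_adj] at hi
      fin_cases u <;> simp
      · rcases hi with h | h
        · obtain ⟨s, hs, t, ht, hst⟩ := seg_adj p ha hal h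
          exact ⟨s, Or.inl hs, t, Or.inl ht, hst⟩
        · obtain ⟨s, hs, t, ht, hst⟩ := seg_adj p ha hal h
          exact ⟨t, Or.inl ht, s, Or.inl hs, hst.symm⟩
      · rcases hi with h | h
        · exact seg_adj q hb hbl h
        · obtain ⟨s, hs, t, ht, hst⟩ := seg_adj q hb hbl h
          exact ⟨t, ht, s, hs, hst.symm⟩

/-- A graph with two disjoint paths and `(k-1)^2 + 1` disjoint connected sets meeting both has a
ladder minor with `k` rungs. -/
theorem ladder_of_rungs {x x' y y' : V} (p : G.Walk x x') (q : G.Walk y y') (hp : p.IsPath)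
    (hq : q.IsPath) (hpq : ∀ z ∈ p.support, z ∉ q.support) {k m : ℕ} (hk : 0 < k)
    (hm : (k - 1) * (k - 1) < m) (R : Fin m → Set V)
    (hdis : Pairwise (Function.onFun Disjoint R)) (hR : ∀ i, Conn G (R i))
    (hP : ∀ i, ∃ z ∈ R i, z ∈ p.support) (hQ : ∀ i, ∃ z ∈ R i, z ∈ q.support) :
    HasMinor G (ladder k) := by
  classical
  have hlink : ∀ i, ∃ u v, u ≤ p.length ∧ v ≤ q.length ∧
      ∃ r : G.Walk (p.getVert u) (q.getVert v), r.IsPath ∧ (∀ z ∈ r.support, z ∈ R i) ∧
      (∀ z ∈ r.support, z ∈ p.support → z = p.getVert u) ∧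
      ∀ z ∈ r.support, z ∈ q.support → z = q.getVert v := by
    intro i
    obtain ⟨s, hs, t, ht, r, hr⟩ := (hR i).exists_link
      (S := {z | z ∈ p.support}) (T := {z | z ∈ q.support}) (hP i) (hQ i)
    obtain ⟨u, rfl, hu⟩ := SimpleGraph.Walk.mem_support_iff_exists_getVert.1 hs
    obtain ⟨v, rfl, hv⟩ := SimpleGraph.Walk.mem_support_iff_exists_getVert.1 ht
    exact ⟨u, v, hu, hv, r, hr⟩
  choose a b hal hbl r hr hrR hrp hrq using hlink
  have hRd : ∀ i j, i ≠ j → ∀ z ∈ (r i).support, z ∉ (r j).support := fun i j hij z h1 h2 =>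
    Set.disjoint_left.1 (hdis hij) (hrR i z h1) (hrR j z h2)
  have hai : a.Injective := fun i j he => by
    by_contra hij
    exact hRd i j hij _ (r i).start_mem_support (by rw [he]; exact (r j).start_mem_support)
  have hbi : b.Injective := fun i j he => by
    by_contra hij
    exact hRd i j hij _ (r i).end_mem_support (by rw [he]; exact (r j).end_mem_support)
  have sorted : ∀ S : Finset (Fin m), S.card = k → ∃ σ : Fin k → Fin m, (∀ j, σ j ∈ S) ∧
      StrictMono (a ∘ σ) := by
    intro S hS
    have hc : (S.image a).card = k := by rw [card_image_of_injective _ hai, hS]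
    have := fun j => mem_image.1 ((S.image a).orderEmbOfFin_mem hc j)
    choose σ hσ hσa using this
    refine ⟨σ, hσ, fun i j h => ?_⟩
    simp only [Function.comp, hσa]
    exact ((S.image a).orderEmbOfFin hc).strictMono h
  rcases monotone_subset a b hai hbi (k - 1) (k - 1) univ (by simpa using hm) with
    ⟨S, -, hS, hmon⟩ | ⟨S, -, hS, hmon⟩
  · obtain ⟨σ, hσ, hσa⟩ := sorted S (by omega)
    have hσi : σ.Injective := Function.Injective.of_comp hσa.injective
    exact ladder_of_sorted p q hp hq hpq (a ∘ σ) (b ∘ σ) hσa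
      (fun i j h => hmon _ (hσ i) _ (hσ j) (hσa h)) (fun j => hal _) (fun j => hbl _)
      (fun j => r (σ j)) (fun j => hr _) (fun j => hrp _) (fun j => hrq _)
      fun i j h => hRd _ _ (hσi.ne h)
  · obtain ⟨σ, hσ, hσa⟩ := sorted S (by omega)
    have hσi : σ.Injective := Function.Injective.of_comp hσa.injective
    have he : ∀ i, q.getVert (b i) = q.reverse.getVert (q.length - b i) := fun i => by
      rw [SimpleGraph.Walk.getVert_reverse]
      congr 1
      have := hbl i
      omega
    refine ladder_of_sorted p q.reverse hp hq.reverse (by simpa using hpq) (a ∘ σ)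
      (fun j => q.length - b (σ j)) hσa (fun i j h => ?_) (fun j => hal _) (fun j => by simp)
      (fun j => (r (σ j)).copy rfl (he _)) (fun j => by simpa using hr _)
      (fun j z hz => hrp _ z (by simpa using hz)) (fun j z hz hz' => ?_)
      fun i j h z hz hz' => hRd _ _ (hσi.ne h) z (by simpa using hz) (by simpa using hz')
    · have h1 := hmon _ (hσ i) _ (hσ j) (hσa h)
      have h2 := hbl (σ i)
      change q.length - b (σ i) < q.length - b (σ j)
      omega
    · exact (hrq _ z (by simpa using hz) (by simpa using hz')).trans (he _)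

end Vale.Agent.P235.Ladder
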